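import Vale.Agent.P159.TM.H968.Cells

/-!
Row GAU of part (I): the limits of the discrete cosine coefficients of the cells and of the modes.
-/

open Finset Filter Topology

namespace Vale.Agent.P159.TM.H968

open Vale.Agent.P159 Vale.Agent.P159.R2.H254

lemma tele (θ c : ℝ) (r : ℕ) :
    2 * Real.sin (θ / 2) * ∑ a ∈ range r, Real.cos (θ * (c + a + 1 / 2)) =
      Real.sin (θ * (c + r)) - Real.sin (θ * c) := by
  induction r with
  | zero => simp
  | succ r ih =>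
    rw [sum_range_succ, mul_add, ih]
    have e1 : θ * (c + ((r + 1 : ℕ) : ℝ)) = θ * (c + r + 1 / 2) + θ / 2 := by push_cast; ring
    have e2 : θ * (c + r) = θ * (c + r + 1 / 2) - θ / 2 := by ring
    rw [e1, e2, Real.sin_add, Real.sin_sub]
    ring

lemma half_lim (c : ℝ) : Tendsto (fun k : ℕ => c / 2 ^ k) atTop (𝓝 0) := by
  have h : Tendsto (fun k : ℕ => c * (1 / 2 : ℝ) ^ k) atTop (𝓝 (c * 0)) :=
    (tendsto_pow_atTop_nhds_zero_of_lt_one (by norm_num) (by norm_num)).const_mul _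
  rw [mul_zero] at h
  refine h.congr fun k => ?_
  rw [one_div, inv_pow]
  rfl

lemma sin_lim {c : ℝ} (hc : 0 < c) :
    Tendsto (fun k : ℕ => 2 ^ k * Real.sin (c / 2 ^ k)) atTop (𝓝 c) := by
  have h1 := hasDerivAt_iff_tendsto_slope_zero.1 (Real.hasDerivAt_sin 0)
  have h2 : Tendsto (fun k : ℕ => c / 2 ^ k) atTop (𝓝[≠] 0) :=
    tendsto_nhdsWithin_iff.2 ⟨half_lim c, Eventually.of_forall fun k => by
      have : 0 < c / 2 ^ k := by positivity
      exact this.ne'⟩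
  have h3 := (h1.comp h2).const_mul c
  rw [Real.cos_zero, mul_one] at h3
  refine h3.congr fun k => ?_
  simp only [Function.comp, zero_add, Real.sin_zero, sub_zero, smul_eq_mul]
  field_simp

lemma cavg_eq {s i p : ℕ} (hp : 0 < p) : SpecI.cavg s i p =
    2 ^ s * ((Real.sin (p * Real.pi * (((i : ℝ) + 1) / 2 ^ s)) -
      Real.sin (p * Real.pi * ((i : ℝ) / 2 ^ s))) / (p * Real.pi)) := by
  unfold SpecI.cavg
  have hp' : (p : ℝ) * Real.pi ≠ 0 := by
    have : (0 : ℝ) < p := by exact_mod_cast hp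
    have := Real.pi_pos
    positivity
  rw [intervalIntegral.integral_comp_mul_left (fun x => Real.cos x) hp', integral_cos,
    smul_eq_mul]
  ring

lemma riem {s i : ℕ} (p : ℕ) :
    Tendsto (fun k : ℕ => 2 ^ s / 2 ^ k * ∑ a ∈ range (2 ^ (k - s)),
      Real.cos (p * Real.pi * ((((i * 2 ^ (k - s) + a : ℕ) : ℝ) + 1 / 2) / 2 ^ k))) atTop
      (𝓝 (SpecI.cavg s i p)) := by
  rcases Nat.eq_zero_or_pos p with rfl | hp
  · have e1 : SpecI.cavg s i 0 = 1 := by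
      unfold SpecI.cavg
      simp
      field_simp
      ring
    rw [e1]
    refine tendsto_const_nhds.congr' ?_
    filter_upwards [eventually_ge_atTop s] with k hk
    simp only [Nat.cast_zero, zero_mul, Real.cos_zero, sum_const, card_range, nsmul_eq_mul, mul_one]
    push_cast
    have e2 : (2 : ℝ) ^ k = 2 ^ s * 2 ^ (k - s) := by rw [← pow_add]; congr 1; omega
    rw [e2]
    field_simp
  · have hp' : (0 : ℝ) < p := by exact_mod_cast hp
    have hpi := Real.pi_pos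
    set S : ℝ := Real.sin (p * Real.pi * (((i : ℝ) + 1) / 2 ^ s)) -
      Real.sin (p * Real.pi * ((i : ℝ) / 2 ^ s)) with hS
    have h1 := sin_lim (c := p * Real.pi / 2) (by positivity)
    have h2 : Tendsto (fun k : ℕ => 2 ^ s * (S / (2 * (2 ^ k * Real.sin (p * Real.pi / 2 / 2 ^ k)))))
        atTop (𝓝 (2 ^ s * (S / (2 * (p * Real.pi / 2))))) :=
      (tendsto_const_nhds.div (h1.const_mul 2) (by positivity)).const_mul _
    rw [cavg_eq hp]
    have e0 : (2 : ℝ) * (p * Real.pi / 2) = p * Real.pi := by ring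
    rw [e0] at h2
    refine h2.congr' ?_
    have h3 : Tendsto (fun k : ℕ => p * Real.pi / 2 / 2 ^ k) atTop (𝓝 0) := half_lim _
    filter_upwards [eventually_ge_atTop s, h3.eventually (gt_mem_nhds hpi)] with k hk hk2
    have hs : 0 < Real.sin (p * Real.pi / 2 / 2 ^ k) :=
      Real.sin_pos_of_pos_of_lt_pi (by positivity) hk2
    have h4 := tele (p * Real.pi / 2 ^ k) (i * 2 ^ (k - s)) (2 ^ (k - s))
    have e1 : (2 : ℝ) ^ k = 2 ^ s * 2 ^ (k - s) := by rw [← pow_add]; congr 1; omega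
    have e2 : p * Real.pi / 2 ^ k * (i * 2 ^ (k - s) + ((2 ^ (k - s) : ℕ) : ℝ)) =
        p * Real.pi * (((i : ℝ) + 1) / 2 ^ s) := by
      rw [e1]
      push_cast
      field_simp
    have e3 : p * Real.pi / 2 ^ k * ((i : ℝ) * 2 ^ (k - s)) =
        p * Real.pi * ((i : ℝ) / 2 ^ s) := by
      rw [e1]
      field_simp
    have e4 : p * Real.pi / 2 ^ k / 2 = p * Real.pi / 2 / 2 ^ k := by ring
    rw [e2, e3, e4, ← hS] at h4
    have e5 : ∑ a ∈ range (2 ^ (k - s)),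
        Real.cos (p * Real.pi * ((((i * 2 ^ (k - s) + a : ℕ) : ℝ) + 1 / 2) / 2 ^ k)) =
        ∑ a ∈ range (2 ^ (k - s)), Real.cos (p * Real.pi / 2 ^ k *
          ((i : ℝ) * 2 ^ (k - s) + a + 1 / 2)) := by
      refine sum_congr rfl fun a _ => ?_
      congr 1
      push_cast
      ring
    rw [e5, ← h4]
    generalize ∑ a ∈ range (2 ^ (k - s)), Real.cos (p * Real.pi / 2 ^ k *
          ((i : ℝ) * 2 ^ (k - s) + a + 1 / 2)) = T
    have hs' := hs.ne'
    generalize Real.sin (p * Real.pi / 2 / 2 ^ k) = R at hs' ⊢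
    field_simp

lemma dct_cell {s i j k : ℕ} (hs : s ≤ k) (hi : i < 2 ^ s) (hj : j < 2 ^ s) (p q : ℕ) :
    dct (2 ^ k - 1) (cellf s i j k) (p, q) =
      (2 ^ s / 2 ^ k * ∑ a ∈ range (2 ^ (k - s)),
        Real.cos (p * Real.pi * ((((i * 2 ^ (k - s) + a : ℕ) : ℝ) + 1 / 2) / 2 ^ k))) *
      (2 ^ s / 2 ^ k * ∑ a ∈ range (2 ^ (k - s)),
        Real.cos (q * Real.pi * ((((j * 2 ^ (k - s) + a : ℕ) : ℝ) + 1 / 2) / 2 ^ k))) := by
  unfold dct
  have h1 := cellf_sum_mul hs hi hj fun a c =>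
    Real.cos (p * Real.pi * (((a : ℝ) + 1 / 2) / 2 ^ k)) *
      Real.cos (q * Real.pi * (((c : ℝ) + 1 / 2) / 2 ^ k))
  have hk : (((2 ^ k - 1 : ℕ) : ℝ) + 1) = 2 ^ k := by
    rw [Nat.cast_sub Nat.one_le_two_pow]
    push_cast
    ring
  have e : ∑ x : Fa (2 ^ k - 1), cellf s i j k x * c2 (2 ^ k - 1) (p, q) x =
      ∑ x : Fa (2 ^ k - 1), cellf s i j k x * (fun a c : ℕ =>
        Real.cos (p * Real.pi * (((a : ℝ) + 1 / 2) / 2 ^ k)) *
        Real.cos (q * Real.pi * (((c : ℝ) + 1 / 2) / 2 ^ k))) x.1 x.2 := by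
    refine sum_congr rfl fun x _ => ?_
    simp only [c2, c1, ctr, hk]
  rw [e, h1, four_pow, ← sum_mul_sum]
  have e4 : (4 : ℝ) = 2 * 2 := by norm_num
  rw [e4, mul_pow, mul_pow]
  generalize ∑ a ∈ range (2 ^ (k - s)),
    Real.cos (p * Real.pi * ((((i * 2 ^ (k - s) + a : ℕ) : ℝ) + 1 / 2) / 2 ^ k)) = T1
  generalize ∑ a ∈ range (2 ^ (k - s)),
    Real.cos (q * Real.pi * ((((j * 2 ^ (k - s) + a : ℕ) : ℝ) + 1 / 2) / 2 ^ k)) = T2
  field_simp

theorem dcc : ∀ s i j : ℕ, i < 2 ^ s → j < 2 ^ s → ∀ p q : ℕ,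
    Tendsto (fun k => dct (2 ^ k - 1) (cellf s i j k) (p, q)) atTop
      (𝓝 (SpecI.cavg s i p * SpecI.cavg s j q)) := by
  intro s i j hi hj p q
  refine ((riem (s := s) (i := i) p).mul (riem (s := s) (i := j) q)).congr' ?_
  filter_upwards [eventually_ge_atTop s] with k hk
  rw [dct_cell hk hi hj]

lemma cellf_sq {s i j k : ℕ} (hs : s ≤ k) (hi : i < 2 ^ s) (hj : j < 2 ^ s) :
    ∑ x, cellf s i j k x ^ 2 = 4 ^ s * 4 ^ k := by
  rw [← cellf_sum hs hi hj, mul_sum]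
  refine sum_congr rfl fun x _ => ?_
  unfold cellf
  split_ifs <;> ring

/-- the mode as a face function -/
noncomputable def cosf (m k : ℕ) : Fa (2 ^ k - 1) → ℝ := fun x => c2 (2 ^ k - 1) (m, 0) x

lemma cosf_orth {m k : ℕ} (hm : m < 2 ^ k) {p : ℕ × ℕ} (h1 : p.1 < 2 ^ k) (h2 : p.2 < 2 ^ k) :
    ∑ x, cosf m k x * c2 (2 ^ k - 1) p x = if p = (m, 0) then nr (m, 0) * 4 ^ k else 0 := by
  have hk : 2 ^ k - 1 + 1 = 2 ^ k := Nat.sub_add_cancel Nat.one_le_two_pow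
  have h0 : 0 < 2 ^ k := by positivity
  have h := orth2 (2 ^ k - 1) (⟨m, by omega⟩, ⟨0, by omega⟩) (⟨p.1, by omega⟩, ⟨p.2, by omega⟩)
  have e1 : ix (((⟨m, by omega⟩ : Fin (2 ^ k - 1 + 1)), (⟨0, by omega⟩ : Fin (2 ^ k - 1 + 1))) :
    Fa (2 ^ k - 1)) = (m, 0) := rfl
  have e2 : ix (((⟨p.1, by omega⟩ : Fin (2 ^ k - 1 + 1)),
    (⟨p.2, by omega⟩ : Fin (2 ^ k - 1 + 1))) : Fa (2 ^ k - 1)) = p := rfl
  rw [e1, e2, four_pow] at h
  unfold cosf
  rw [h]
  by_cases hp : p = (m, 0)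
  · have h5 : p.1 = m := by rw [hp]
    have h6 : p.2 = 0 := by rw [hp]
    rw [if_pos hp, if_pos]
    exact Prod.ext (Fin.ext h5.symm) (Fin.ext h6.symm)
  · rw [if_neg hp, if_neg]
    intro hcon
    apply hp
    have h3 := congrArg (fun q : Fa (2 ^ k - 1) => ((q.1 : ℕ), (q.2 : ℕ))) hcon
    exact h3.symm

lemma cosf_sum {m k : ℕ} (h1 : 1 ≤ m) (hm : m < 2 ^ k) : ∑ x, cosf m k x = 0 := by
  have h0 : 0 < 2 ^ k := by positivity
  have h := cosf_orth hm (p := (0, 0)) h0 h0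
  simp only [c2_zero, mul_one] at h
  rw [h, if_neg]
  intro hcon
  have := congrArg Prod.fst hcon
  simp only at this
  omega

lemma cosf_sq {m k : ℕ} (hm : m < 2 ^ k) : ∑ x, cosf m k x ^ 2 ≤ 1 * 4 ^ k := by
  have h0 : 0 < 2 ^ k := by positivity
  have h := cosf_orth hm (p := (m, 0)) hm h0
  rw [if_pos rfl] at h
  have e : ∑ x, cosf m k x ^ 2 = ∑ x, cosf m k x * c2 (2 ^ k - 1) (m, 0) x :=
    sum_congr rfl fun x _ => by unfold cosf; ring
  rw [e, h]
  refine mul_le_mul_of_nonneg_right ?_ (by positivity)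
  unfold nr
  exact mul_le_one₀ (cnrm_le _) (cnrm_pos _).le (cnrm_le _)

lemma cosf_dct (m : ℕ) (p : ℕ × ℕ) :
    Tendsto (fun k => dct (2 ^ k - 1) (cosf m k) p) atTop
      (𝓝 (if p = (m, 0) then nr (m, 0) else 0)) := by
  refine tendsto_const_nhds.congr' ?_
  filter_upwards [eventually_ge_atTop (m + p.1 + p.2)] with k hk
  have : k < 2 ^ k := Nat.lt_two_pow_self
  unfold dct
  rw [cosf_orth (by omega) (by omega) (by omega), four_pow]
  split_ifs
  · field_simp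
  · simp

lemma fm_eq (k m : ℕ) (h : SpecI.V (2 ^ k) → ℤ) :
    SpecI.fm k m h = pr (cosf m k) fun y => h (sit y) := by
  have hn : 2 ^ k = (2 ^ k - 1) + 1 := (Nat.sub_add_cancel Nat.one_le_two_pow).symm
  have hk : (((2 ^ k - 1 : ℕ) : ℝ) + 1) = 2 ^ k := by
    rw [Nat.cast_sub Nat.one_le_two_pow]
    push_cast
    ring
  unfold SpecI.fm pr
  rw [four_pow, ← (siE hn).sum_comp]
  congr 1
  refine sum_congr rfl fun y _ => ?_
  rw [siE_apply]
  unfold cosf c2 c1 ctr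
  have e1 : ((sit y : SpecI.V (2 ^ k)).1).val = (y.1 : ℕ) := by
    unfold sit
    exact ZMod.val_natCast_of_lt (by have := y.1.2; omega)
  rw [e1, hk]
  simp only [Nat.cast_zero, zero_mul, Real.cos_zero, mul_one]
  ring

end Vale.Agent.P159.TM.H968
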