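import Vale.Agent.P159.TM.H968.Inst
import Vale.Agent.P159.TM.H968.DC

/-!
Row GAU of part (I): `IGm b` and `IGc b` of `Spec/I.lean`.
-/

open Finset Filter Topology

namespace Vale.Agent.P159.TM.H968

open Vale.Agent.P159 Vale.Agent.P159.R2.H254

/-- IGm: lower bound for the plane waves of the free box, mass on the cell averages -/
theorem igm {b : ℝ} (hb : 0 < b) : SpecI.IGm b := by
  intro hY κ hκ a m hm δ hδ
  have hm' : (0 : ℝ) < m := by exact_mod_cast hm
  set V : ℝ := (1 / 2) / (κ ^ 2 + Real.pi ^ 2 * m ^ 2 / helicity b) with hV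
  have hV0 : 0 < V := by
    have := Real.pi_pos
    positivity
  have hlt : ∀ k, m ≤ k → m < 2 ^ k := fun k hk => lt_of_le_of_lt hk Nat.lt_two_pow_self
  obtain ⟨k₀, hk₀⟩ := inst (fun s i j => dcc s i j) hb hY hκ a (uf := cosf m) (ū := 0) (B := 1)
    (φ := fun p => if p = (m, 0) then nr (m, 0) else 0) m
    (fun k hk => by rw [cosf_sum hm (hlt k hk), zero_mul])
    (fun k hk => cosf_sq (hlt k hk)) (cosf_dct m) (X := fun k h => SpecI.fm k m h)
    (fun k _ h => fm_eq k m h) {(m, 0)} (δ := δ * V) (by positivity)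
  refine ⟨k₀, fun k hk => le_trans (le_of_eq ?_) (hk₀ k hk)⟩
  rw [sum_singleton, if_pos rfl]
  have hnr : nr (m, 0) = 1 / 2 := by
    unfold nr cnrm
    rw [if_neg (by omega), if_pos rfl]
    norm_num
  rw [hnr]
  have e : ((1 : ℝ) / 2) ^ 2 / (1 / 2 * (κ ^ 2 + Real.pi ^ 2 * (((m, 0) : ℕ × ℕ).1 ^ 2 +
      (((m, 0) : ℕ × ℕ).2 : ℝ) ^ 2) / helicity b)) = V := by
    simp only [hV, Nat.cast_zero]
    have := Real.pi_pos
    field_simp
    ring
  rw [e]
  ring

/-- IGc: lower bound for one cell average, mass on the cell averages -/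
theorem igc {b : ℝ} (hb : 0 < b) : SpecI.IGc b := by
  intro hY κ hκ a s i j hi hj K δ hδ
  obtain ⟨k₀, hk₀⟩ := inst (fun s i j => dcc s i j) hb hY hκ a (uf := cellf s i j) (ū := 1)
    (B := 4 ^ s) (φ := fun p => SpecI.cavg s i p.1 * SpecI.cavg s j p.2) s
    (fun k hk => by rw [cellf_sum hk hi hj, one_mul])
    (fun k hk => (cellf_sq hk hi hj).le) (fun p => dcc s i j hi hj p.1 p.2)
    (X := fun k h => SpecI.avg (2 ^ (k - s)) (i, j) h)
    (fun k hk h => avg_eq hk hi hj h) K hδ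
  exact ⟨k₀, hk₀⟩

end Vale.Agent.P159.TM.H968
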