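import Vale.Agent.P159.TM.H968.Dct

/-!
Row BLK of part (I): the energy of a combination of cosines, lower bound for the eigenvalues.
-/

open Finset

namespace Vale.Agent.P159.TM.H968

open Vale.Agent.P159 Vale.Agent.P159.R2.H254

/-- difference of a function on the faces across a bond -/
def gr {N : ℕ} (w : Fa N → ℝ) (e : Eb N) : ℝ := w (blf e) - w (brt e)

/-- the energy form -/
def DD {N : ℕ} (w g : Fa N → ℝ) : ℝ := ∑ e : Eb N, gr w e * gr g e

lemma DD_eq {N : ℕ} (w g : Fa N → ℝ) : DD w g =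
    (∑ i : Fin N, ∑ j : Fin (N + 1), (w (i.succ, j) - w (i.castSucc, j)) *
      (g (i.succ, j) - g (i.castSucc, j))) +
    ∑ i : Fin (N + 1), ∑ j : Fin N, (w (i, j.succ) - w (i, j.castSucc)) *
      (g (i, j.succ) - g (i, j.castSucc)) := by
  unfold DD
  rw [Fintype.sum_sum_type, Fintype.sum_prod_type, Fintype.sum_prod_type]
  congr 1
  refine sum_congr rfl fun i _ => sum_congr rfl fun j _ => ?_
  simp only [gr, blf, brt]
  ring

lemma DD_c2 {N : ℕ} (k : ℕ × ℕ) (g : Fa N → ℝ) :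
    DD (c2 N k) g = lam (N + 1) k.1 k.2 * ∑ x, g x * c2 N k x := by
  rw [DD_eq]
  have e1 : ∑ i : Fin N, ∑ j : Fin (N + 1), (c2 N k (i.succ, j) - c2 N k (i.castSucc, j)) *
      (g (i.succ, j) - g (i.castSucc, j)) =
      2 * (1 - Real.cos (k.1 * Real.pi / ((N + 1 : ℕ) : ℝ))) * ∑ i : Fin (N + 1),
        ∑ j : Fin (N + 1), g (i, j) * c2 N k (i, j) := by
    have e3 : ∑ i : Fin (N + 1), ∑ j : Fin (N + 1), g (i, j) * c2 N k (i, j) =
        ∑ j : Fin (N + 1), ∑ i : Fin (N + 1), g (i, j) * c2 N k (i, j) := sum_comm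
    rw [sum_comm, e3, mul_sum]
    refine sum_congr rfl fun j _ => ?_
    have h := parts_fin N k.1 (fun i => g (i, j) * c1 N k.2 j)
    push_cast
    calc _ = ∑ i : Fin N, (Real.cos (k.1 * Real.pi * ctr N i.succ) -
          Real.cos (k.1 * Real.pi * ctr N i.castSucc)) *
          (g (i.succ, j) * c1 N k.2 j - g (i.castSucc, j) * c1 N k.2 j) :=
          sum_congr rfl fun i _ => by simp only [c2, c1]; ring
      _ = _ := by
        rw [h]
        congr 1
        exact sum_congr rfl fun i _ => by simp only [c2, c1]; ring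
  have e2 : ∑ i : Fin (N + 1), ∑ j : Fin N, (c2 N k (i, j.succ) - c2 N k (i, j.castSucc)) *
      (g (i, j.succ) - g (i, j.castSucc)) =
      2 * (1 - Real.cos (k.2 * Real.pi / ((N + 1 : ℕ) : ℝ))) * ∑ i : Fin (N + 1),
        ∑ j : Fin (N + 1), g (i, j) * c2 N k (i, j) := by
    rw [mul_sum]
    refine sum_congr rfl fun i _ => ?_
    have h := parts_fin N k.2 (fun j => g (i, j) * c1 N k.1 i)
    push_cast
    calc _ = ∑ j : Fin N, (Real.cos (k.2 * Real.pi * ctr N j.succ) -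
          Real.cos (k.2 * Real.pi * ctr N j.castSucc)) *
          (g (i, j.succ) * c1 N k.1 i - g (i, j.castSucc) * c1 N k.1 i) :=
          sum_congr rfl fun j _ => by simp only [c2, c1]; ring
      _ = _ := by
        rw [h]
        congr 1
        exact sum_congr rfl fun j _ => by simp only [c2, c1]; ring
  rw [e1, e2, Fintype.sum_prod_type]
  unfold lam
  ring

/-- combination of cosines -/
noncomputable def comb {N : ℕ} (S : Finset (Fa N)) (β : ℕ × ℕ → ℝ) (x : Fa N) : ℝ :=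
  ∑ k ∈ S, β (ix k) * c2 N (ix k) x

lemma gr_comb {N : ℕ} (S : Finset (Fa N)) (β : ℕ × ℕ → ℝ) (e : Eb N) :
    gr (comb S β) e = ∑ k ∈ S, β (ix k) * gr (c2 N (ix k)) e := by
  simp only [gr, comb, ← sum_sub_distrib]
  exact sum_congr rfl fun k _ => by ring

lemma DD_comb {N : ℕ} (S : Finset (Fa N)) (β : ℕ × ℕ → ℝ) (g : Fa N → ℝ) :
    DD (comb S β) g = ∑ k ∈ S, β (ix k) * (lam (N + 1) (ix k).1 (ix k).2 *
      (((N : ℝ) + 1) ^ 2 * dct N g (ix k))) := by
  have hN : ((N : ℝ) + 1) ^ 2 ≠ 0 := by positivity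
  unfold DD
  simp only [gr_comb, sum_mul]
  rw [sum_comm]
  refine sum_congr rfl fun k _ => ?_
  have h := DD_c2 (ix k) g
  unfold DD at h
  unfold dct
  rw [mul_div_cancel₀ _ hN, ← h, mul_sum]
  exact sum_congr rfl fun e _ => by ring

lemma dct_comb {N : ℕ} (S : Finset (Fa N)) (β : ℕ × ℕ → ℝ) (k : Fa N) :
    dct N (comb S β) (ix k) = if k ∈ S then β (ix k) * nr (ix k) else 0 := by
  have hN : ((N : ℝ) + 1) ^ 2 ≠ 0 := by positivity
  unfold dct comb
  simp only [sum_mul]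
  rw [sum_comm]
  have e : ∀ l ∈ S, ∑ x, β (ix l) * c2 N (ix l) x * c2 N (ix k) x =
      if l = k then β (ix k) * nr (ix k) * ((N : ℝ) + 1) ^ 2 else 0 := by
    intro l _
    have h := orth2 N l k
    have e2 : ∑ x, β (ix l) * c2 N (ix l) x * c2 N (ix k) x =
        β (ix l) * ∑ x, c2 N (ix l) x * c2 N (ix k) x := by
      rw [mul_sum]
      exact sum_congr rfl fun x _ => by ring
    rw [e2, h]
    split_ifs with h3
    · rw [h3]; ring
    · ring
  rw [sum_congr rfl e, sum_ite_eq' S k]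
  split_ifs
  · field_simp
  · simp

lemma DD_comb_self {N : ℕ} (S : Finset (Fa N)) (β : ℕ × ℕ → ℝ) :
    DD (comb S β) (comb S β) = ∑ k ∈ S, β (ix k) ^ 2 * (lam (N + 1) (ix k).1 (ix k).2 *
      (((N : ℝ) + 1) ^ 2 * nr (ix k))) := by
  rw [DD_comb]
  refine sum_congr rfl fun k hk => ?_
  rw [dct_comb, if_pos hk]
  ring

lemma one_sub_cos_ge {L m : ℕ} (h : m ≤ L) (hL : 0 < L) :
    2 * (m : ℝ) ^ 2 ≤ (L : ℝ) ^ 2 * (1 - Real.cos (m * Real.pi / L)) := by
  have hL' : (0 : ℝ) < L := by exact_mod_cast hL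
  have hm : (m : ℝ) ≤ L := by exact_mod_cast h
  have h1 : 2 / Real.pi * (m * Real.pi / L / 2) ≤ Real.sin (m * Real.pi / L / 2) := by
    apply Real.mul_le_sin
    · positivity
    · rw [div_div, div_le_div_iff₀ (by positivity) (by norm_num)]
      nlinarith [Real.pi_pos]
  have h2 : 2 / Real.pi * (m * Real.pi / L / 2) = m / L := by
    field_simp
  rw [h2] at h1
  have h3 : Real.cos (m * Real.pi / L) = 1 - 2 * Real.sin (m * Real.pi / L / 2) ^ 2 := by
    have e : (m : ℝ) * Real.pi / L = 2 * (m * Real.pi / L / 2) := by ring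
    conv_lhs => rw [e]
    rw [Real.cos_two_mul]
    have := Real.sin_sq_add_cos_sq (m * Real.pi / L / 2)
    linarith
  rw [h3]
  have h4 : (0 : ℝ) ≤ m / L := by positivity
  have h5 : (m / L : ℝ) ^ 2 ≤ Real.sin (m * Real.pi / L / 2) ^ 2 := by
    apply pow_le_pow_left₀ h4 h1
  rw [div_pow, div_le_iff₀ (by positivity)] at h5
  nlinarith

lemma lam_ge {N : ℕ} (k : Fa N) : 4 * (((ix k).1 : ℝ) ^ 2 + ((ix k).2 : ℝ) ^ 2) ≤
    ((N : ℝ) + 1) ^ 2 * lam (N + 1) (ix k).1 (ix k).2 := by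
  have h1 := one_sub_cos_ge (L := N + 1) (m := (ix k).1) k.1.2.le (by omega)
  have h2 := one_sub_cos_ge (L := N + 1) (m := (ix k).2) k.2.2.le (by omega)
  unfold lam
  push_cast at h1 h2 ⊢
  nlinarith

end Vale.Agent.P159.TM.H968
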