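import Vale.Agent.P159.R2.H254.Final
import Vale.Agent.P159.TM.H968.Energy

/-!
Row BLK of part (I): bare bound for exponential moments of linear functionals of the height
differences, comparison of characteristic functions.
-/

open Finset MeasureTheory

namespace Vale.Agent.P159.TM.H968

open Vale.Agent.P159 Vale.Agent.P159.R2.H254 Vale.Agent.P159.H353 Vale.Agent.P159.H950

lemma continuous_cosT : Continuous cosT := Real.Angle.continuous_cos

lemma continuous_sinT : Continuous sinT := Real.Angle.continuous_sin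

lemma cosT_le (x : T) : cosT x ≤ 1 := by
  have h := Real.Angle.cos_sq_add_sin_sq x
  have h2 : cosT x ^ 2 ≤ 1 := by
    show Real.Angle.cos x ^ 2 ≤ 1
    nlinarith [sq_nonneg (Real.Angle.sin x)]
  nlinarith [sq_nonneg (cosT x - 1), sq_nonneg (cosT x + 1)]

lemma norm_exp_cosC (b : ℝ) (x : T) (j : ℝ) :
    ‖Complex.exp (b * cosC x (-Complex.I * j))‖ = Real.exp (b * (cosT x * Real.cosh j)) := by
  rw [Complex.norm_exp]
  congr 1
  unfold cosC
  have e : (-Complex.I * j : ℂ) = ((-j : ℝ) : ℂ) * Complex.I := by push_cast; ring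
  rw [e, Complex.cos_mul_I, Complex.sin_mul_I, ← Complex.ofReal_cosh, ← Complex.ofReal_sinh,
    Real.cosh_neg]
  have e2 : (b : ℂ) * ((cosT x : ℂ) * (Real.cosh j : ℂ) -
      (sinT x : ℂ) * ((Real.sinh (-j) : ℂ) * Complex.I)) =
      ((b * (cosT x * Real.cosh j) : ℝ) : ℂ) - ((b * (sinT x * Real.sinh (-j)) : ℝ) : ℂ) *
        Complex.I := by
    push_cast; ring
  rw [e2]
  simp

lemma cosC_zero' (x : T) : cosC x 0 = (cosT x : ℂ) := by
  unfold cosC; simp

/-- the real partition function -/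
noncomputable def Zr (N : ℕ) (b : ℝ) : ℝ :=
  ∫ θ : inner (N + 1) → T, ∏ e : Eb N, Real.exp (b * cosT (bth θ e)) ∂torusHaar (inner (N + 1))

lemma ZC_zero (N : ℕ) (b : ℝ) : ZC N b 0 = (Zr N b : ℂ) := by
  unfold ZC Zr
  rw [← integral_complex_ofReal]
  refine integral_congr_ae (Filter.Eventually.of_forall fun θ => ?_)
  simp only [Pi.zero_apply, cosC_zero']
  push_cast
  rfl

lemma norm_ZC_le {N : ℕ} {b : ℝ} (hb : 0 ≤ b) (j : Eb N → ℝ) :
    ‖ZC N b (fun e => -Complex.I * j e)‖ ≤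
      Real.exp (b * ∑ e, (Real.cosh (j e) - 1)) * Zr N b := by
  have : IsProbabilityMeasure (torusHaar (inner (N + 1))) := by
    unfold torusHaar; infer_instance
  have hc : ∀ e : Eb N, Continuous fun θ : inner (N + 1) → T => cosT (bth θ e) := fun e =>
    continuous_cosT.comp (bth_cont e)
  unfold ZC Zr
  refine (norm_integral_le_integral_norm _).trans ?_
  rw [← integral_const_mul]
  refine integral_mono ?_ ?_ ?_
  · refine Continuous.integrable_of_hasCompactSupport ?_ (HasCompactSupport.of_compactSpace _)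
    refine Continuous.norm ?_
    refine continuous_finsetProd _ fun e _ => ?_
    refine Complex.continuous_exp.comp (continuous_const.mul ?_)
    unfold cosC
    exact ((Complex.continuous_ofReal.comp (hc e)).mul continuous_const).sub
      ((Complex.continuous_ofReal.comp (continuous_sinT.comp (bth_cont e))).mul continuous_const)
  · refine Continuous.integrable_of_hasCompactSupport ?_ (HasCompactSupport.of_compactSpace _)
    refine continuous_const.mul (continuous_finsetProd _ fun e _ => ?_)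
    exact Real.continuous_exp.comp (continuous_const.mul (hc e))
  · intro θ
    simp only
    rw [norm_prod]
    simp only [norm_exp_cosC]
    rw [← Real.exp_sum, ← Real.exp_sum, ← Real.exp_add]
    refine Real.exp_le_exp.2 ?_
    rw [mul_sum, ← sum_add_distrib]
    refine sum_le_sum fun e _ => ?_
    have h1 := cosT_le (bth θ e)
    have h2 := Real.one_le_cosh (j e)
    have h3 : 0 ≤ b * ((1 - cosT (bth θ e)) * (Real.cosh (j e) - 1)) :=
      mul_nonneg hb (mul_nonneg (by linarith) (by linarith))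
    nlinarith

/-- linear functional of the height differences -/
def lin {N : ℕ} (j : Eb N → ℝ) (h : Fa N → ℤ) : ℝ := ∑ e, j e * (bcur h e : ℝ)

/-- real mean -/
noncomputable def hE (N : ℕ) (b : ℝ) (G : (Fa N → ℤ) → ℝ) : ℝ :=
  (∑' h : Hgt N, hWt N b h.1 * G h.1) / ∑' h : Hgt N, hWt N b h.1

lemma hasSum_lin {N : ℕ} {b : ℝ} (hb : 0 ≤ b) (j : Eb N → ℝ) :
    HasSum (fun h : Hgt N => hWt N b h.1 * Real.exp (lin j h.1))
      (ZC N b (fun e => -Complex.I * j e)).re := by
  have h := Complex.hasSum_re (ZC_heights (N := N) hb fun e => -Complex.I * j e)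
  have e : (fun h : Hgt N => (((∏ e, wI b (bcur h.1 e) : ℝ) : ℂ) *
      Complex.exp (Complex.I * ∑ e, -Complex.I * (j e : ℂ) * (bcur h.1 e : ℂ))).re) =
      fun h : Hgt N => hWt N b h.1 * Real.exp (lin j h.1) := by
    funext h
    have e1 : Complex.I * ∑ e, -Complex.I * (j e : ℂ) * (bcur h.1 e : ℂ) =
        ((lin j h.1 : ℝ) : ℂ) := by
      unfold lin
      push_cast
      rw [mul_sum]
      refine sum_congr rfl fun e _ => ?_
      have : Complex.I * (-Complex.I * (j e : ℂ) * (bcur h.1 e : ℂ)) =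
        (-(Complex.I * Complex.I)) * ((j e : ℂ) * (bcur h.1 e : ℂ)) := by ring
      rw [this, Complex.I_mul_I]
      ring
    rw [e1, ← Complex.ofReal_exp, ← Complex.ofReal_mul, Complex.ofReal_re, hWt_eq hb]
  rw [e] at h
  exact h

lemma tsum_hWt_eq (N : ℕ) {b : ℝ} (hb : 0 ≤ b) : ∑' h : Hgt N, hWt N b h.1 = Zr N b := by
  have h := (hasSum_lin hb (fun _ : Eb N => 0)).tsum_eq
  have e : (fun e : Eb N => -Complex.I * ((fun _ : Eb N => (0 : ℝ)) e : ℂ)) = 0 := by
    funext e; simp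
  rw [e, ZC_zero, Complex.ofReal_re] at h
  rw [← h]
  refine tsum_congr fun h => ?_
  simp [lin]

lemma hE_exp_le {N : ℕ} {b : ℝ} (hb : 0 < b) (j : Eb N → ℝ) :
    hE N b (fun h => Real.exp (lin j h)) ≤ Real.exp (b * ∑ e, (Real.cosh (j e) - 1)) := by
  unfold hE
  rw [(hasSum_lin hb.le j).tsum_eq, div_le_iff₀ (tsum_hWt_pos N hb), tsum_hWt_eq N hb.le]
  exact (Complex.re_le_norm _).trans (norm_ZC_le hb.le j)

lemma hE_one {N : ℕ} {b : ℝ} (hb : 0 < b) : hE N b (fun _ => 1) = 1 := by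
  unfold hE
  simp only [mul_one]
  exact div_self (tsum_hWt_pos N hb).ne'

lemma norm_hMean_le {N : ℕ} {b : ℝ} (hb : 0 < b) {F : (Fa N → ℤ) → ℂ} {G : (Fa N → ℤ) → ℝ}
    (hFG : ∀ h, ‖F h‖ ≤ G h) (hG : Summable fun h : Hgt N => hWt N b h.1 * G h.1) :
    ‖hMean N b F‖ ≤ hE N b G := by
  have hZ := tsum_hWt_pos N hb
  have hn : ∀ h : Hgt N, ‖(hWt N b h.1 : ℂ) * F h.1‖ ≤ hWt N b h.1 * G h.1 := by
    intro h
    rw [norm_mul, Complex.norm_real, Real.norm_eq_abs, abs_of_pos (hWt_pos hb h.1)]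
    exact mul_le_mul_of_nonneg_left (hFG h.1) (hWt_pos hb h.1).le
  unfold hMean hE
  rw [norm_div, Complex.norm_real, Real.norm_eq_abs, abs_of_pos hZ]
  refine div_le_div_of_nonneg_right ?_ hZ.le
  exact tsum_of_norm_bounded hG.hasSum hn

lemma summable_bdd {N : ℕ} {b : ℝ} (hb : 0 < b) {F : (Fa N → ℤ) → ℂ} {C : ℝ}
    (hF : ∀ h, ‖F h‖ ≤ C) : Summable fun h : Hgt N => (hWt N b h.1 : ℂ) * F h.1 := by
  refine Summable.of_norm_bounded ((summable_hWt N hb).mul_right C) fun h => ?_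
  rw [norm_mul, Complex.norm_real, Real.norm_eq_abs, abs_of_pos (hWt_pos hb h.1)]
  exact mul_le_mul_of_nonneg_left (hF h.1) (hWt_pos hb h.1).le

lemma hMean_sub {N : ℕ} {b : ℝ} (hb : 0 < b) {F G : (Fa N → ℤ) → ℂ} {C : ℝ}
    (hF : ∀ h, ‖F h‖ ≤ C) (hG : ∀ h, ‖G h‖ ≤ C) :
    hMean N b (fun h => F h - G h) = hMean N b F - hMean N b G := by
  unfold hMean
  rw [← sub_div]
  congr 1
  rw [← (summable_bdd hb hF).tsum_sub (summable_bdd hb hG)]
  exact tsum_congr fun h => by ring

lemma half_sq_le_cosh (x : ℝ) : x ^ 2 / 2 ≤ Real.cosh x - 1 := by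
  have h := Real.cosh_sq (x / 2)
  have h2 : Real.cosh x = 2 * Real.cosh (x / 2) ^ 2 - 1 := by
    have := Real.cosh_two_mul (x / 2)
    rw [mul_div_cancel₀ _ (two_ne_zero)] at this
    rw [this, Real.cosh_sq]; ring
  have h3 : (x / 2) ^ 2 ≤ Real.sinh (x / 2) ^ 2 := by
    rcases le_total 0 (x / 2) with h | h
    · exact pow_le_pow_left₀ h (Real.self_le_sinh_iff.2 h) 2
    · have h4 := Real.sinh_le_self_iff.2 h
      nlinarith
  rw [h2, h]
  nlinarith

/-- comparison of characteristic functions -/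
theorem cmp {N : ℕ} {b : ℝ} (hb : 0 < b) (X : (Fa N → ℤ) → ℝ) (j : Eb N → ℝ) {δ : ℝ}
    (hδ : 0 < δ) :
    ‖hMean N b (fun h => Complex.exp (Complex.I * ((X h + lin j h : ℝ) : ℂ))) -
      hMean N b (fun h => Complex.exp (Complex.I * ((X h : ℝ) : ℂ)))‖ ≤
      δ / 2 + (Real.exp (b * ∑ e, (Real.cosh (j e) - 1)) - 1) / δ := by
  have hn : ∀ x : ℝ, ‖Complex.exp (Complex.I * (x : ℂ))‖ ≤ 1 := by
    intro x
    rw [mul_comm, Complex.norm_exp_ofReal_mul_I]
  rw [← hMean_sub hb (C := 1) (fun h => hn _) (fun h => hn _)]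
  have hb1 : ∀ h : Fa N → ℤ, ‖Complex.exp (Complex.I * ((X h + lin j h : ℝ) : ℂ)) -
      Complex.exp (Complex.I * ((X h : ℝ) : ℂ))‖ ≤
      δ / 2 * 1 + ((Real.exp (lin j h) + Real.exp (lin (fun e => -j e) h)) / 2 - 1) / δ := by
    intro h
    have e1 : Complex.exp (Complex.I * ((X h + lin j h : ℝ) : ℂ)) -
        Complex.exp (Complex.I * ((X h : ℝ) : ℂ)) = Complex.exp (Complex.I * ((X h : ℝ) : ℂ)) *
        (Complex.exp (Complex.I * ((lin j h : ℝ) : ℂ)) - 1) := by
      rw [mul_sub, ← Complex.exp_add, mul_one]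
      congr 2
      push_cast; ring
    rw [e1, norm_mul]
    have h1 : ‖Complex.exp (Complex.I * ((lin j h : ℝ) : ℂ)) - 1‖ ≤ |lin j h| := by
      have := Real.norm_exp_I_mul_ofReal_sub_one_le (x := lin j h)
      simpa using this
    have h2 : |lin j h| ≤ δ / 2 + lin j h ^ 2 / (2 * δ) := by
      rw [← sq_abs (lin j h)]
      have h3 : 0 ≤ (|lin j h| - δ) ^ 2 / (2 * δ) := by positivity
      have h4 : (|lin j h| - δ) ^ 2 / (2 * δ) = δ / 2 + |lin j h| ^ 2 / (2 * δ) - |lin j h| := by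
        field_simp; ring
      linarith
    have h5 := half_sq_le_cosh (lin j h)
    have e2 : lin (fun e => -j e) h = -lin j h := by
      unfold lin
      rw [← sum_neg_distrib]
      exact sum_congr rfl fun e _ => by ring
    rw [e2, ← Real.cosh_eq]
    have h6 : lin j h ^ 2 / (2 * δ) ≤ (Real.cosh (lin j h) - 1) / δ := by
      rw [show lin j h ^ 2 / (2 * δ) = (lin j h ^ 2 / 2) / δ by field_simp]
      exact div_le_div_of_nonneg_right h5 hδ.le
    calc _ ≤ 1 * |lin j h| := mul_le_mul (hn _) h1 (norm_nonneg _) zero_le_one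
      _ ≤ _ := by rw [one_mul]; linarith
  have hS0 := (summable_hWt N hb).hasSum
  have hS1 := hasSum_lin hb.le j
  have hS2 := hasSum_lin hb.le (fun e => -j e)
  have hZ := tsum_hWt_pos N hb
  set Z := ∑' h : Hgt N, hWt N b h.1 with hZd
  set E := Real.exp (b * ∑ e, (Real.cosh (j e) - 1)) with hE'
  have hG : HasSum (fun h : Hgt N => hWt N b h.1 * (δ / 2 * 1 +
      ((Real.exp (lin j h.1) + Real.exp (lin (fun e => -j e) h.1)) / 2 - 1) / δ))
      (δ / 2 * Z + (((ZC N b (fun e => -Complex.I * j e)).re +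
        (ZC N b (fun e => -Complex.I * ((-j e : ℝ) : ℂ))).re) / 2 - Z) / δ) := by
    have h1 := (hS0.mul_left (δ / 2)).add ((((hS1.add hS2).div_const 2).sub hS0).div_const δ)
    refine h1.congr_fun ?_
    intro h
    ring
  refine (norm_hMean_le hb hb1 hG.summable).trans ?_
  unfold hE
  rw [hG.tsum_eq, div_le_iff₀ hZ]
  have h1 : (ZC N b (fun e => -Complex.I * j e)).re ≤ E * Z := by
    rw [hZd, tsum_hWt_eq N hb.le]
    exact (Complex.re_le_norm _).trans (norm_ZC_le hb.le j)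
  have h2 : (ZC N b (fun e => -Complex.I * ((-j e : ℝ) : ℂ))).re ≤ E * Z := by
    rw [hZd, tsum_hWt_eq N hb.le]
    refine (Complex.re_le_norm _).trans ((norm_ZC_le hb.le (fun e => -j e)).trans (le_of_eq ?_))
    simp only [Real.cosh_neg, hE']
  have h3 : (((ZC N b (fun e => -Complex.I * j e)).re +
        (ZC N b (fun e => -Complex.I * ((-j e : ℝ) : ℂ))).re) / 2 - Z) / δ ≤
      (E * Z - Z) / δ := div_le_div_of_nonneg_right (by linarith) hδ.le
  calc _ ≤ δ / 2 * Z + (E * Z - Z) / δ := by linarith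
    _ = _ := by ring

end Vale.Agent.P159.TM.H968
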