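import Vale.Agent.P159.H950.F5
import Vale.Agent.P159.TM.H968.Bare

/-!
Row BLK of part (I): the limit of the characteristic function of the pairing of the heights of the
free block with a bounded neutral function on the faces whose cosine coefficients converge.
-/

open Finset Filter Topology

namespace Vale.Agent.P159.TM.H968

open Vale.Agent.P159 Vale.Agent.P159.R2.H254 Vale.Agent.P159.H353 Vale.Agent.P159.H950

lemma sum_ix {N : ℕ} (K : Finset (ℕ × ℕ)) (hK : ∀ k ∈ K, k.1 < N + 1 ∧ k.2 < N + 1)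
    (g : ℕ × ℕ → ℝ) :
    ∑ k : Fa N, (if ix k ∈ K then g (ix k) else 0) = ∑ k ∈ K, g k := by
  have e : K = (univ.filter fun k : Fa N => ix k ∈ K).image ix := by
    ext k
    simp only [mem_image, mem_filter, mem_univ, true_and]
    constructor
    · intro hk
      refine ⟨(⟨k.1, (hK k hk).1⟩, ⟨k.2, (hK k hk).2⟩), ?_, rfl⟩
      exact hk
    · rintro ⟨a, ha, rfl⟩
      exact ha
  conv_rhs => rw [e]
  rw [sum_image fun a _ b _ h => ix_inj h, sum_filter]

/-- the pairing of the heights with a function on the faces -/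
noncomputable def pr {N : ℕ} (u : Fa N → ℝ) (h : Fa N → ℤ) : ℝ :=
  (∑ x, u x * (h x : ℝ)) / ((N : ℝ) + 1) ^ 2

lemma dct_h {N : ℕ} (h : Fa N → ℤ) (k : ℕ × ℕ) :
    dct N (fun x => (h x : ℝ)) k = fmode N k.1 k.2 h := by
  unfold dct fmode
  rw [Fintype.sum_prod_type]
  rfl

lemma lin_gr {N : ℕ} (w : Fa N → ℝ) (h : Fa N → ℤ) :
    lin (gr w) h = DD w fun x => (h x : ℝ) := by
  unfold lin DD
  refine sum_congr rfl fun e _ => ?_
  simp only [gr, bcur]
  push_cast
  ring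

lemma dct_zero_zero {N : ℕ} {u : Fa N → ℝ} (h0 : ∑ x, u x = 0) : dct N u (0, 0) = 0 := by
  have e : ∀ x : Fa N, u x * c2 N (0, 0) x = u x := by
    intro x
    simp [c2, c1]
  unfold dct
  rw [sum_congr rfl fun x _ => e x, h0, zero_div]

/-- the tail of the expansion as a linear functional of the height differences -/
lemma head_tail {N : ℕ} {u : Fa N → ℝ} (h0 : ∑ x, u x = 0) (K : Finset (ℕ × ℕ))
    (hK0 : (0, 0) ∉ K) (hK : ∀ k ∈ K, k.1 < N + 1 ∧ k.2 < N + 1) (φ : ℕ × ℕ → ℝ)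
    (R : ℕ) (hR : 1 ≤ R) (hKR : ∀ k : ℕ × ℕ, k ∉ K → k ≠ (0, 0) → R ≤ k.1 ∨ R ≤ k.2) :
    ∃ j : Eb N → ℝ, (∀ h : Fa N → ℤ, pr u h = ∑ k ∈ K, φ k / nr k * fmode N k.1 k.2 h + lin j h) ∧
      ∑ e, j e ^ 2 ≤ (∑ x, u x ^ 2) / ((N : ℝ) + 1) ^ 2 / (4 * (R : ℝ) ^ 2) +
        ∑ k ∈ K, (dct N u k - φ k) ^ 2 := by
  classical
  set ψ : ℕ × ℕ → ℝ := fun k => dct N u k - if k ∈ K then φ k else 0 with hψ
  set β : ℕ × ℕ → ℝ := fun k => (nr k)⁻¹ * ψ k / (lam (N + 1) k.1 k.2 * ((N : ℝ) + 1) ^ 2) with hβ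
  have hL : (0 : ℝ) < ((N : ℝ) + 1) ^ 2 := by positivity
  have hψ0 : ψ (0, 0) = 0 := by
    simp only [hψ, dct_zero_zero h0, if_neg hK0, sub_zero]
  have hlam : ∀ k : Fa N, ix k ≠ (0, 0) →
      0 < ((N : ℝ) + 1) ^ 2 * lam (N + 1) (ix k).1 (ix k).2 := by
    intro k hk
    have h1 := lam_ge k
    have h2 : (ix k).1 ≠ 0 ∨ (ix k).2 ≠ 0 := by
      by_contra hcon
      push Not at hcon
      exact hk (Prod.ext hcon.1 hcon.2)
    have h3 : 0 < ((ix k).1 : ℝ) ^ 2 + ((ix k).2 : ℝ) ^ 2 := by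
      rcases h2 with h | h
      · have : ((ix k).1 : ℝ) ≠ 0 := by exact_mod_cast h
        positivity
      · have : ((ix k).2 : ℝ) ≠ 0 := by exact_mod_cast h
        positivity
    linarith
  refine ⟨gr (comb univ β), ?_, ?_⟩
  · intro h
    rw [lin_gr, DD_comb]
    have e1 : pr u h = ∑ k : Fa N, (nr (ix k))⁻¹ * dct N u (ix k) *
        dct N (fun x => (h x : ℝ)) (ix k) := pair_dct N u fun x => (h x : ℝ)
    rw [e1, ← sum_ix K hK, ← sum_add_distrib]
    refine sum_congr rfl fun k _ => ?_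
    by_cases hk : ix k = (0, 0)
    · rw [hk, dct_zero_zero h0, if_neg hK0]
      simp only [hβ, hψ0]
      ring
    · have h3 := (hlam k hk).ne'
      have h4 := (nr_pos (ix k)).ne'
      have h5 : lam (N + 1) (ix k).1 (ix k).2 ≠ 0 := right_ne_zero_of_mul h3
      simp only [hβ, hψ, dct_h]
      split_ifs
      · field_simp
        ring
      · field_simp
        ring
  · have e2 : ∑ e : Eb N, gr (comb univ β) e ^ 2 = DD (comb (N := N) univ β) (comb univ β) := by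
      unfold DD
      exact sum_congr rfl fun e _ => by ring
    rw [e2, DD_comb_self, parseval, sum_div, ← sum_ix K hK, ← sum_add_distrib]
    refine sum_le_sum fun k _ => ?_
    by_cases hk : ix k = (0, 0)
    · rw [hk, dct_zero_zero h0, if_neg hK0]
      simp only [hβ, hψ0]
      simp
    · have h3 := hlam k hk
      have h4 := nr_pos (ix k)
      have h5 : β (ix k) ^ 2 * (lam (N + 1) (ix k).1 (ix k).2 * (((N : ℝ) + 1) ^ 2 * nr (ix k))) =
          (nr (ix k))⁻¹ * ψ (ix k) ^ 2 / (((N : ℝ) + 1) ^ 2 * lam (N + 1) (ix k).1 (ix k).2) := by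
        have h6 : lam (N + 1) (ix k).1 (ix k).2 ≠ 0 := right_ne_zero_of_mul h3.ne'
        simp only [hβ]
        field_simp
      rw [h5]
      by_cases hk2 : ix k ∈ K
      · simp only [hψ, if_pos hk2]
        have h7 : 4 ≤ ((N : ℝ) + 1) ^ 2 * lam (N + 1) (ix k).1 (ix k).2 := by
          have h1 := lam_ge k
          have h2 : (ix k).1 ≠ 0 ∨ (ix k).2 ≠ 0 := by
            by_contra hcon
            push Not at hcon
            exact hk (Prod.ext hcon.1 hcon.2)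
          have h3 : 1 ≤ ((ix k).1 : ℝ) ^ 2 + ((ix k).2 : ℝ) ^ 2 := by
            rcases h2 with h | h
            · have : (1 : ℝ) ≤ (ix k).1 := by exact_mod_cast Nat.one_le_iff_ne_zero.2 h
              nlinarith [sq_nonneg ((ix k).2 : ℝ)]
            · have : (1 : ℝ) ≤ (ix k).2 := by exact_mod_cast Nat.one_le_iff_ne_zero.2 h
              nlinarith [sq_nonneg ((ix k).1 : ℝ)]
          linarith
        have h8 : (nr (ix k))⁻¹ ≤ 4 := by
          have h9 : 1 / 4 ≤ nr (ix k) := by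
            have a1 := half_le_cnrm (ix k).1
            have a2 := half_le_cnrm (ix k).2
            unfold nr
            nlinarith
          rw [inv_le_comm₀ h4 (by norm_num)]
          linarith
        have h10 : (nr (ix k))⁻¹ * (dct N u (ix k) - φ (ix k)) ^ 2 /
            (((N : ℝ) + 1) ^ 2 * lam (N + 1) (ix k).1 (ix k).2) ≤
            (dct N u (ix k) - φ (ix k)) ^ 2 := by
          rw [div_le_iff₀ (by linarith)]
          nlinarith [sq_nonneg (dct N u (ix k) - φ (ix k))]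
        have h11 : 0 ≤ (nr (ix k))⁻¹ * dct N u (ix k) ^ 2 / (4 * (R : ℝ) ^ 2) := by positivity
        linarith
      · simp only [hψ, if_neg hk2, sub_zero, add_zero]
        have hR' : (1 : ℝ) ≤ R := by exact_mod_cast hR
        have h7 : 4 * (R : ℝ) ^ 2 ≤ ((N : ℝ) + 1) ^ 2 * lam (N + 1) (ix k).1 (ix k).2 := by
          have h1 := lam_ge k
          rcases hKR (ix k) hk2 hk with h | h
          · have : (R : ℝ) ≤ (ix k).1 := by exact_mod_cast h
            nlinarith [sq_nonneg ((ix k).2 : ℝ)]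
          · have : (R : ℝ) ≤ (ix k).2 := by exact_mod_cast h
            nlinarith [sq_nonneg ((ix k).1 : ℝ)]
        apply div_le_div_of_nonneg_left (by positivity) (by positivity) h7

/-- the limit variance is `helicity b` times the sum of these terms -/
noncomputable def qk (φ : ℕ × ℕ → ℝ) (k : ℕ × ℕ) : ℝ :=
  if k = (0, 0) then 0 else φ k ^ 2 / (nr k * (Real.pi ^ 2 * ((k.1 : ℝ) ^ 2 + (k.2 : ℝ) ^ 2)))

lemma qk_nonneg (φ : ℕ × ℕ → ℝ) (k : ℕ × ℕ) : 0 ≤ qk φ k := by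
  unfold qk
  split_ifs
  · exact le_rfl
  · have := nr_pos k
    have := Real.pi_pos
    positivity

lemma qk_le (φ : ℕ × ℕ → ℝ) (k : ℕ × ℕ) : qk φ k ≤ (nr k)⁻¹ * φ k ^ 2 := by
  unfold qk
  have h4 := nr_pos k
  split_ifs with hk
  · positivity
  · have h2 : k.1 ≠ 0 ∨ k.2 ≠ 0 := by
      by_contra hcon
      push Not at hcon
      exact hk (Prod.ext hcon.1 hcon.2)
    have h3 : 1 ≤ (k.1 : ℝ) ^ 2 + (k.2 : ℝ) ^ 2 := by
      rcases h2 with h | h
      · have : (1 : ℝ) ≤ k.1 := by exact_mod_cast Nat.one_le_iff_ne_zero.2 h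
        nlinarith [sq_nonneg (k.2 : ℝ)]
      · have : (1 : ℝ) ≤ k.2 := by exact_mod_cast Nat.one_le_iff_ne_zero.2 h
        nlinarith [sq_nonneg (k.1 : ℝ)]
    have h5 : 1 ≤ Real.pi ^ 2 := by nlinarith [Real.pi_gt_three]
    rw [inv_mul_eq_div]
    apply div_le_div_of_nonneg_left (by positivity) h4
    nlinarith [mul_le_mul h5 h3 zero_le_one (by positivity)]

section limit

variable {ι : Type*} {l : Filter ι} [l.NeBot] {ν : ι → ℕ} (hν : Tendsto ν l atTop)
  {u : ∀ i, Fa (ν i) → ℝ} {B : ℝ} {φ : ℕ × ℕ → ℝ}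

include hν in
lemma bessel (hB : ∀ i, (∑ x, u i x ^ 2) / ((ν i : ℝ) + 1) ^ 2 ≤ B)
    (hφ : ∀ k, Tendsto (fun i => dct (ν i) (u i) k) l (𝓝 (φ k))) (K : Finset (ℕ × ℕ)) :
    ∑ k ∈ K, (nr k)⁻¹ * φ k ^ 2 ≤ B := by
  have h1 : Tendsto (fun i => ∑ k ∈ K, (nr k)⁻¹ * dct (ν i) (u i) k ^ 2) l
      (𝓝 (∑ k ∈ K, (nr k)⁻¹ * φ k ^ 2)) :=
    tendsto_finsetSum _ fun k _ => ((hφ k).pow 2).const_mul _
  refine le_of_tendsto h1 ?_
  obtain ⟨M, hM⟩ : ∃ M : ℕ, ∀ k ∈ K, k.1 < M + 1 ∧ k.2 < M + 1 := by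
    refine ⟨K.sup (fun k => k.1 + k.2), fun k hk => ?_⟩
    have : k.1 + k.2 ≤ K.sup (fun k => k.1 + k.2) :=
      Finset.le_sup (f := fun k : ℕ × ℕ => k.1 + k.2) hk
    omega
  filter_upwards [hν.eventually_ge_atTop M] with i hi
  rw [← sum_ix (N := ν i) K (fun k hk => ⟨by have := (hM k hk).1; omega,
    by have := (hM k hk).2; omega⟩)]
  refine le_trans ?_ (hB i)
  rw [parseval]
  refine sum_le_sum fun k _ => ?_
  have := nr_pos (ix k)
  split_ifs
  · exact le_rfl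
  · positivity

include hν in
lemma summable_qk (hB : ∀ i, (∑ x, u i x ^ 2) / ((ν i : ℝ) + 1) ^ 2 ≤ B)
    (hφ : ∀ k, Tendsto (fun i => dct (ν i) (u i) k) l (𝓝 (φ k))) : Summable (qk φ) := by
  refine summable_of_sum_le (c := B) (fun k => qk_nonneg φ k) fun K => ?_
  exact (sum_le_sum fun k _ => qk_le φ k).trans (bessel hν hB hφ K)

include hν in
/-- BLK: the limit of the characteristic function -/
theorem blk {b : ℝ} (hb : 0 < b) (h0 : ∀ i, ∑ x, u i x = 0)
    (hB : ∀ i, (∑ x, u i x ^ 2) / ((ν i : ℝ) + 1) ^ 2 ≤ B)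
    (hφ : ∀ k, Tendsto (fun i => dct (ν i) (u i) k) l (𝓝 (φ k))) :
    Tendsto (fun i => hMean (ν i) b fun h => Complex.exp (Complex.I * ((pr (u i) h : ℝ) : ℂ))) l
      (𝓝 ((Real.exp (-(helicity b / 2 * ∑' k, qk φ k)) : ℝ) : ℂ)) := by
  have hsum := summable_qk hν hB hφ
  have hB0 : 0 ≤ B := by
    obtain ⟨i⟩ : Nonempty ι := nonempty_of_neBot l
    exact le_trans (by positivity) (hB i)
  -- the finite sets of modes
  set K : ℕ → Finset (ℕ × ℕ) := fun R => (range R ×ˢ range R).erase (0, 0) with hK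
  have hKq : Tendsto (fun R => ∑ k ∈ K R, qk φ k) atTop (𝓝 (∑' k, qk φ k)) := by
    have h1 : Tendsto (fun R : ℕ => range R ×ˢ range R) atTop atTop := by
      rw [tendsto_atTop]
      intro S
      obtain ⟨M, hM⟩ : ∃ M : ℕ, ∀ k ∈ S, k.1 < M ∧ k.2 < M := by
        refine ⟨S.sup (fun k => k.1 + k.2) + 1, fun k hk => ?_⟩
        have : k.1 + k.2 ≤ S.sup (fun k => k.1 + k.2) :=
          Finset.le_sup (f := fun k : ℕ × ℕ => k.1 + k.2) hk
        omega
      filter_upwards [eventually_ge_atTop M] with R hR k hk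
      rw [mem_product, mem_range, mem_range]
      have := hM k hk
      omega
    refine (hsum.hasSum.comp h1).congr fun R => ?_
    simp only [Function.comp_apply, hK]
    by_cases h2 : ((0, 0) : ℕ × ℕ) ∈ range R ×ˢ range R
    · rw [← add_sum_erase _ _ h2]
      simp [qk]
    · rw [erase_eq_of_notMem h2]
  rw [Metric.tendsto_nhds]
  intro ε hε
  -- constants
  obtain ⟨η, hη0, hη1, hη⟩ : ∃ η : ℝ, 0 < η ∧ η ≤ 1 ∧
      Real.exp (b * (2 * η)) - 1 ≤ ε / 2 * (ε / 5) := by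
    have hc : Tendsto (fun η : ℝ => Real.exp (b * (2 * η)) - 1) (𝓝 0) (𝓝 0) := by
      have : Continuous fun η : ℝ => Real.exp (b * (2 * η)) - 1 := by fun_prop
      simpa using this.tendsto 0
    have h1 : ∀ᶠ η in 𝓝[>] (0 : ℝ), Real.exp (b * (2 * η)) - 1 < ε / 2 * (ε / 5) :=
      (hc.mono_left nhdsWithin_le_nhds).eventually (gt_mem_nhds (by positivity))
    obtain ⟨η, h2, h3, h4⟩ := (h1.and ((Ioo_mem_nhdsGT (zero_lt_one (α := ℝ))))).exists
    exact ⟨η, h3, h4.le, h2.le⟩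
  -- the level
  have hgc : Continuous fun x : ℝ => ((Real.exp (-(helicity b / 2 * x)) : ℝ) : ℂ) := by fun_prop
  have hlimR := (hgc.tendsto _).comp hKq
  have hR1 : ∀ᶠ R : ℕ in atTop, B / (4 * (R : ℝ) ^ 2) ≤ η / 2 := by
    have h1 : Tendsto (fun R : ℕ => B / 4 * ((R : ℝ) ^ 2)⁻¹) atTop (𝓝 (B / 4 * 0)) := by
      refine Tendsto.const_mul _ ?_
      refine tendsto_inv_atTop_zero.comp ?_
      exact (tendsto_pow_atTop (two_ne_zero)).comp tendsto_natCast_atTop_atTop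
    rw [mul_zero] at h1
    filter_upwards [h1.eventually (gt_mem_nhds (show 0 < η / 2 by positivity))] with R hR
    refine le_trans (le_of_eq ?_) hR.le
    rw [← div_div]
    rfl
  obtain ⟨R, hRa, hRb, hRc⟩ := ((Metric.tendsto_nhds.1 hlimR (ε / 5) (by positivity)).and
    (hR1.and (eventually_ge_atTop 1))).exists
  have hK0 : ((0, 0) : ℕ × ℕ) ∉ K R := by simp [hK]
  have hhead := (modes_lim hb (K R) hK0 (fun k => φ k / nr k) Complex.I).comp hν
  have hval : Complex.exp (Complex.I ^ 2 / 2 * ((∑ k ∈ K R, (φ k / nr k) ^ 2 * (helicity b *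
      (cnrm k.1 * cnrm k.2) / (Real.pi ^ 2 * ((k.1 : ℝ) ^ 2 + (k.2 : ℝ) ^ 2))) : ℝ) : ℂ)) =
      ((Real.exp (-(helicity b / 2 * ∑ k ∈ K R, qk φ k)) : ℝ) : ℂ) := by
    rw [Complex.ofReal_exp]
    congr 1
    have e1 : ∑ k ∈ K R, (φ k / nr k) ^ 2 * (helicity b *
        (cnrm k.1 * cnrm k.2) / (Real.pi ^ 2 * ((k.1 : ℝ) ^ 2 + (k.2 : ℝ) ^ 2))) =
        helicity b * ∑ k ∈ K R, qk φ k := by
      rw [mul_sum]
      refine sum_congr rfl fun k hk => ?_
      have hk0 : k ≠ (0, 0) := fun h => hK0 (h ▸ hk)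
      have h4 := (nr_pos k).ne'
      unfold qk
      rw [if_neg hk0]
      have e2 : cnrm k.1 * cnrm k.2 = nr k := rfl
      rw [e2]
      field_simp
    rw [e1, Complex.I_sq]
    push_cast
    ring
  rw [hval] at hhead
  have hsq : Tendsto (fun i => ∑ k ∈ K R, (dct (ν i) (u i) k - φ k) ^ 2) l (𝓝 0) := by
    have h1 : Tendsto (fun i => ∑ k ∈ K R, (dct (ν i) (u i) k - φ k) ^ 2) l
        (𝓝 (∑ k ∈ K R, (φ k - φ k) ^ 2)) :=
      tendsto_finsetSum _ fun k _ => ((hφ k).sub_const (φ k)).pow 2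
    simpa using h1
  filter_upwards [hν.eventually_ge_atTop R, Metric.tendsto_nhds.1 hhead (ε / 5) (by positivity),
    hsq.eventually (gt_mem_nhds (show 0 < η / 2 by positivity))] with i hi1 hi2 hi3
  obtain ⟨j, hj1, hj2⟩ := head_tail (h0 i) (K R) hK0
    (fun k hk => by
      simp only [hK, mem_erase, mem_product, mem_range] at hk
      omega) φ R hRc
    (fun k hk hk0 => by
      simp only [hK, mem_erase, mem_product, mem_range, not_and, not_lt] at hk
      by_contra hcon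
      push Not at hcon
      exact absurd (hk hk0 hcon.1) (not_le.2 hcon.2))
  have hj3 : ∑ e, j e ^ 2 ≤ η := by
    have h1 : (∑ x, u i x ^ 2) / ((ν i : ℝ) + 1) ^ 2 / (4 * (R : ℝ) ^ 2) ≤
        B / (4 * (R : ℝ) ^ 2) := div_le_div_of_nonneg_right (hB i) (by positivity)
    linarith
  have hj4 : ∑ e, (Real.cosh (j e) - 1) ≤ 2 * η := by
    calc _ ≤ ∑ e, 2 * j e ^ 2 := by
          refine sum_le_sum fun e _ => cosh_le2 ?_
          have h1 : j e ^ 2 ≤ ∑ e, j e ^ 2 :=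
            single_le_sum (f := fun e => j e ^ 2) (fun e _ => sq_nonneg _) (mem_univ e)
          exact abs_le_one_iff_mul_self_le_one.2 (by nlinarith)
      _ ≤ _ := by rw [← mul_sum]; linarith
  have hcmp := cmp hb (fun h => ∑ k ∈ K R, φ k / nr k * fmode (ν i) k.1 k.2 h) j
    (show 0 < ε / 2 by positivity)
  have hcmp2 : (Real.exp (b * ∑ e, (Real.cosh (j e) - 1)) - 1) / (ε / 2) ≤ ε / 5 := by
    rw [div_le_iff₀ (by positivity)]
    refine le_trans (sub_le_sub_right (Real.exp_le_exp.2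
      (mul_le_mul_of_nonneg_left hj4 hb.le)) 1) (hη.trans (le_of_eq (by ring)))
  have e3 : (fun h : Fa (ν i) → ℤ => Complex.exp (Complex.I * ((pr (u i) h : ℝ) : ℂ))) =
      fun h => Complex.exp (Complex.I * (((fun h => ∑ k ∈ K R, φ k / nr k *
        fmode (ν i) k.1 k.2 h) h + lin j h : ℝ) : ℂ)) := by
    funext h
    rw [hj1 h]
  rw [← e3] at hcmp
  rw [dist_eq_norm] at hi2 hRa ⊢
  simp only [Function.comp_apply] at hi2 hRa
  set A := hMean (ν i) b fun h => Complex.exp (Complex.I * ((pr (u i) h : ℝ) : ℂ))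
  set A2 := hMean (ν i) b fun h => Complex.exp (Complex.I *
    ((∑ k ∈ K R, φ k / nr k * fmode (ν i) k.1 k.2 h : ℝ) : ℂ))
  have e4 : A - ((Real.exp (-(helicity b / 2 * ∑' k, qk φ k)) : ℝ) : ℂ) = (A - A2) +
      (A2 - ((Real.exp (-(helicity b / 2 * ∑ k ∈ K R, qk φ k)) : ℝ) : ℂ)) +
      (((Real.exp (-(helicity b / 2 * ∑ k ∈ K R, qk φ k)) : ℝ) : ℂ) -
        ((Real.exp (-(helicity b / 2 * ∑' k, qk φ k)) : ℝ) : ℂ)) := by ring
  rw [e4]
  refine (norm_add_le _ _).trans_lt (lt_of_le_of_lt (add_le_add_left (norm_add_le _ _) _) ?_)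
  linarith

end limit

end Vale.Agent.P159.TM.H968
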