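import Vale.Agent.P159.TM.H968.Bridge

/-!
Row GAU of part (I): uniform bounds for the sum over the global integer, and the comparison of the
second moment with the characteristic function.
-/

open Finset Filter Topology

namespace Vale.Agent.P159.TM.H968

open Vale.Agent.P159 Vale.Agent.P159.R2.H254 Vale.Agent.P159.H353 Vale.Agent.P159.H950

lemma theta_bdd {κ : ℝ} (hκ : 0 < κ) : ∃ C : ℝ, 0 ≤ C ∧ ∀ y : ℝ,
    ∑' z : ℤ, Real.exp (-(κ ^ 2 / 2 * (y + z) ^ 2)) ≤ C := by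
  have hp : 0 ≤ ∑' m : ℤ, pt κ 0 m := tsum_nonneg fun m => (pt_pos κ 0 m).le
  have hq : 0 ≤ Real.sqrt (2 * Real.pi) / κ := by positivity
  refine ⟨Real.sqrt (2 * Real.pi) / κ * ∑' m : ℤ, pt κ 0 m, mul_nonneg hq hp, fun y => ?_⟩
  have h := poisson hκ 0 y
  have e : ∑' n : ℤ, tt κ 0 y n =
      ((∑' z : ℤ, Real.exp (-(κ ^ 2 / 2 * (y + z) ^ 2)) : ℝ) : ℂ) := by
    rw [Complex.ofReal_tsum]
    refine tsum_congr fun n => ?_
    unfold tt
    rw [Complex.ofReal_exp]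
    simp
  have h2 : ‖∑' m : ℤ, (pt κ 0 m : ℂ) * Complex.exp (Complex.I *
      ((2 * Real.pi * m * y : ℝ) : ℂ))‖ ≤ ∑' m : ℤ, pt κ 0 m := by
    refine tsum_of_norm_bounded (pt_summable hκ 0).hasSum fun m => ?_
    rw [norm_mul, norm_eI, mul_one, Complex.norm_real, Real.norm_eq_abs, abs_of_pos (pt_pos κ 0 m)]
  have h3 : ‖((∑' z : ℤ, Real.exp (-(κ ^ 2 / 2 * (y + z) ^ 2)) : ℝ) : ℂ)‖ ≤
      Real.sqrt (2 * Real.pi) / κ * ∑' m : ℤ, pt κ 0 m := by
    rw [← e, h, norm_mul, Complex.norm_real, Real.norm_eq_abs, abs_of_nonneg hq]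
    exact mul_le_mul_of_nonneg_left h2 hq
  rw [Complex.norm_real, Real.norm_eq_abs] at h3
  exact (le_abs_self _).trans h3

lemma sq_exp_le {κ : ℝ} (hκ : 0 < κ) (w : ℝ) :
    Real.exp (-(κ ^ 2 / 2 * w ^ 2)) * w ^ 2 ≤
      4 / κ ^ 2 * Real.exp (-((κ / Real.sqrt 2) ^ 2 / 2 * w ^ 2)) := by
  have h2 : (κ / Real.sqrt 2) ^ 2 = κ ^ 2 / 2 := by
    rw [div_pow, Real.sq_sqrt (by norm_num)]
  rw [h2]
  set x : ℝ := κ ^ 2 * w ^ 2 / 4 with hx
  have h3 : x ≤ Real.exp x := by linarith [Real.add_one_le_exp x]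
  have e1 : Real.exp (-(κ ^ 2 / 2 * w ^ 2)) = Real.exp (-x) * Real.exp (-x) := by
    rw [← Real.exp_add]; congr 1; rw [hx]; ring
  have e2 : Real.exp (-(κ ^ 2 / 2 / 2 * w ^ 2)) = Real.exp (-x) := by
    congr 1; rw [hx]; ring
  have e3 : w ^ 2 = 4 / κ ^ 2 * x := by rw [hx]; field_simp
  rw [e1, e2, e3]
  have h4 : Real.exp (-x) * x ≤ 1 := by
    have := mul_le_mul_of_nonneg_left h3 (Real.exp_pos (-x)).le
    rwa [← Real.exp_add, neg_add_cancel, Real.exp_zero] at this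
  have h5 : 0 < Real.exp (-x) := Real.exp_pos _
  calc Real.exp (-x) * Real.exp (-x) * (4 / κ ^ 2 * x)
      = 4 / κ ^ 2 * Real.exp (-x) * (Real.exp (-x) * x) := by ring
    _ ≤ 4 / κ ^ 2 * Real.exp (-x) * 1 := mul_le_mul_of_nonneg_left h4 (by positivity)
    _ = _ := by ring

/-- the neutral pairing is a combination of the height differences -/
lemma pr_lin {N : ℕ} {u : Fa N → ℝ} (h0 : ∑ x, u x = 0) :
    ∃ j : Eb N → ℝ, ∀ h : Fa N → ℤ, pr u h = lin j h := by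
  obtain ⟨j, hj, -⟩ := head_tail h0 ∅ (notMem_empty _) (by simp) (fun _ => 0) 1 le_rfl
    (fun k _ hk => by
      by_contra hcon
      push Not at hcon
      apply hk
      exact Prod.ext (by omega) (by omega))
  exact ⟨j, fun h => by rw [hj h]; simp⟩

lemma pr_sq_summable {N : ℕ} {b : ℝ} (hb : 0 < b) {u : Fa N → ℝ} (h0 : ∑ x, u x = 0) :
    Summable fun h : Hgt N => hWt N b h.1 * pr u h.1 ^ 2 := by
  obtain ⟨j, hj⟩ := pr_lin h0
  have h1 := (hasSum_lin (N := N) hb.le j).summable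
  have h2 := (hasSum_lin (N := N) hb.le fun e => -j e).summable
  refine Summable.of_nonneg_of_le (fun h => mul_nonneg (hWt_pos hb h.1).le (sq_nonneg _))
    (fun h => ?_) (h1.add h2)
  rw [← mul_add]
  refine mul_le_mul_of_nonneg_left ?_ (hWt_pos hb h.1).le
  have e : lin (fun e => -j e) h.1 = -lin j h.1 := by
    unfold lin
    rw [← sum_neg_distrib]
    exact sum_congr rfl fun e _ => by ring
  rw [hj, e]
  have h3 := half_sq_le_cosh (lin j h.1)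
  rw [Real.cosh_eq] at h3
  linarith

lemma prod_summ {α : Type*} {κ : ℝ} (hκ : 0 < κ) (y : α → ℝ) {A : α → ℝ} (hA : ∀ g, 0 ≤ A g)
    (hAs : Summable A) :
    Summable fun p : α × ℤ => A p.1 * Real.exp (-(κ ^ 2 / 2 * (y p.1 + p.2) ^ 2)) := by
  obtain ⟨C, hC, hC2⟩ := theta_bdd hκ
  have h0 : 0 ≤ fun p : α × ℤ => A p.1 * Real.exp (-(κ ^ 2 / 2 * (y p.1 + p.2) ^ 2)) :=
    fun p => mul_nonneg (hA _) (Real.exp_pos _).le
  refine (summable_prod_of_nonneg h0).2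
    ⟨fun g => (shift_summable (show 0 < κ ^ 2 / 2 by positivity) (y g)).mul_left (A g), ?_⟩
  refine Summable.of_nonneg_of_le (fun g => tsum_nonneg fun z => h0 (g, z)) (fun g => ?_)
    (hAs.mul_right C)
  simp only
  rw [tsum_mul_left]
  exact mul_le_mul_of_nonneg_left (hC2 _) (hA g)

section main

variable {ι : Type*} [Fintype ι] {N n : ℕ} [NeZero n] (hn : n = N + 1) {b : ℝ} (hb : 0 < b)
  {κ : ℝ} (hκ : 0 < κ) {κ' ū : ℝ} {u : Fa N → ℝ} {U : ι → Fa N → ℝ}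
  (hu : ∑ x, u x = 0)
  {Q X : (SpecI.V n → ℤ) → ℝ}
  (hQ : ∀ p : Hgt N × ℤ, Q (hz hn p) = κ ^ 2 * (hm p.1.1 + p.2) ^ 2 +
    ∑ c, (κ' * pr (U c) p.1.1) ^ 2)
  (hX : ∀ p : Hgt N × ℤ, X (hz hn p) = pr u p.1.1 + ū * (hm p.1.1 + p.2))

include hb hκ hQ in
lemma W_le (p : Hgt N × ℤ) : SpecI.wt b (SpecI.inn n) ∅ Q (hz hn p) ≤
    hWt N b p.1.1 * Real.exp (-(κ ^ 2 / 2 * (hm p.1.1 + p.2) ^ 2)) := by
  rw [wt_hz hn hb.le, hQ]
  refine mul_le_mul_of_nonneg_left (Real.exp_le_exp.2 ?_) (hWt_pos hb _).le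
  have : 0 ≤ ∑ c, (κ' * pr (U c) p.1.1) ^ 2 := sum_nonneg fun c _ => sq_nonneg _
  linarith

include hb in
lemma W_pos (p : Hgt N × ℤ) : 0 < SpecI.wt b (SpecI.inn n) ∅ Q (hz hn p) := by
  rw [wt_hz hn hb.le]
  exact mul_pos (hWt_pos hb _) (Real.exp_pos _)

include hb hκ hQ in
lemma W_summable : Summable fun p : Hgt N × ℤ => SpecI.wt b (SpecI.inn n) ∅ Q (hz hn p) := by
  have h := prod_summ hκ (fun g : Hgt N => hm g.1) (A := fun g : Hgt N => hWt N b g.1)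
    (fun g => (hWt_pos hb g.1).le) (summable_hWt N hb)
  exact Summable.of_nonneg_of_le (fun p => (W_pos hn hb p).le) (fun p => W_le hn hb hκ hQ p) h

include hb hκ hQ hX hu in
lemma WX_summable : Summable fun p : Hgt N × ℤ =>
    SpecI.wt b (SpecI.inn n) ∅ Q (hz hn p) * X (hz hn p) ^ 2 := by
  have hκ1 : 0 < κ / Real.sqrt 2 := by positivity
  have hb2 : ∀ p : Hgt N × ℤ, SpecI.wt b (SpecI.inn n) ∅ Q (hz hn p) * X (hz hn p) ^ 2 ≤
      hWt N b p.1.1 * (2 * pr u p.1.1 ^ 2) * Real.exp (-(κ ^ 2 / 2 * (hm p.1.1 + p.2) ^ 2)) +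
      hWt N b p.1.1 * (2 * ū ^ 2 * (4 / κ ^ 2)) *
        Real.exp (-((κ / Real.sqrt 2) ^ 2 / 2 * (hm p.1.1 + p.2) ^ 2)) := by
    intro p
    refine (mul_le_mul_of_nonneg_right (W_le hn hb hκ hQ p) (sq_nonneg _)).trans ?_
    rw [hX]
    set w := hm p.1.1 + (p.2 : ℝ)
    have h1 := sq_exp_le hκ w
    have h2 : (pr u p.1.1 + ū * w) ^ 2 ≤ 2 * pr u p.1.1 ^ 2 + 2 * ū ^ 2 * w ^ 2 := by
      nlinarith [sq_nonneg (pr u p.1.1 - ū * w)]
    have h3 := hWt_pos (N := N) hb p.1.1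
    have h4 := Real.exp_pos (-(κ ^ 2 / 2 * w ^ 2))
    calc hWt N b p.1.1 * Real.exp (-(κ ^ 2 / 2 * w ^ 2)) * (pr u p.1.1 + ū * w) ^ 2
        ≤ hWt N b p.1.1 * Real.exp (-(κ ^ 2 / 2 * w ^ 2)) *
          (2 * pr u p.1.1 ^ 2 + 2 * ū ^ 2 * w ^ 2) :=
          mul_le_mul_of_nonneg_left h2 (by positivity)
      _ = hWt N b p.1.1 * (2 * pr u p.1.1 ^ 2) * Real.exp (-(κ ^ 2 / 2 * w ^ 2)) +
          hWt N b p.1.1 * (2 * ū ^ 2) * (Real.exp (-(κ ^ 2 / 2 * w ^ 2)) * w ^ 2) := by ring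
      _ ≤ hWt N b p.1.1 * (2 * pr u p.1.1 ^ 2) * Real.exp (-(κ ^ 2 / 2 * w ^ 2)) +
          hWt N b p.1.1 * (2 * ū ^ 2) *
            (4 / κ ^ 2 * Real.exp (-((κ / Real.sqrt 2) ^ 2 / 2 * w ^ 2))) := by
          have := mul_le_mul_of_nonneg_left h1 (show 0 ≤ hWt N b p.1.1 * (2 * ū ^ 2) by positivity)
          linarith
      _ = _ := by ring
  refine Summable.of_nonneg_of_le (fun p => mul_nonneg (W_pos hn hb p).le (sq_nonneg _)) hb2 ?_
  refine Summable.add ?_ ?_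
  · exact prod_summ hκ (fun g : Hgt N => hm g.1)
      (A := fun g : Hgt N => hWt N b g.1 * (2 * pr u g.1 ^ 2))
      (fun g => mul_nonneg (hWt_pos hb g.1).le (by positivity))
      (((pr_sq_summable hb hu).mul_left 2).congr fun g => by ring)
  · exact prod_summ hκ1 (fun g : Hgt N => hm g.1)
      (A := fun g : Hgt N => hWt N b g.1 * (2 * ū ^ 2 * (4 / κ ^ 2)))
      (fun g => mul_nonneg (hWt_pos hb g.1).le (by positivity))
      ((summable_hWt N hb).mul_right (2 * ū ^ 2 * (4 / κ ^ 2)))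

include hb hκ hQ hX in
/-- the characteristic function under `ex` -/
lemma chi_eq (t : ℝ) : ∑' p : Hgt N × ℤ, ((SpecI.wt b (SpecI.inn n) ∅ Q (hz hn p) : ℝ) : ℂ) *
      Complex.exp (Complex.I * ((t * X (hz hn p) : ℝ) : ℂ)) =
    hMean N b (FF κ κ' (t * ū) t u U) * ((∑' h : Hgt N, hWt N b h.1 : ℝ) : ℂ) := by
  have hs : Summable fun p : Hgt N × ℤ => ((SpecI.wt b (SpecI.inn n) ∅ Q (hz hn p) : ℝ) : ℂ) *
      Complex.exp (Complex.I * ((t * X (hz hn p) : ℝ) : ℂ)) := by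
    refine Summable.of_norm ((W_summable hn hb hκ hQ).congr fun p => ?_)
    rw [norm_mul, norm_eI, mul_one, Complex.norm_real, Real.norm_eq_abs,
      abs_of_pos (W_pos hn hb p)]
  rw [hs.tsum_prod]
  have hZ : ((∑' h : Hgt N, hWt N b h.1 : ℝ) : ℂ) ≠ 0 := by
    exact_mod_cast (tsum_hWt_pos N hb).ne'
  unfold hMean
  rw [div_mul_cancel₀ _ hZ]
  refine tsum_congr fun g => ?_
  unfold FF
  rw [← tsum_mul_right, ← tsum_mul_left]
  refine tsum_congr fun z => ?_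
  rw [wt_hz hn hb.le, hQ, hX]
  simp only
  unfold tt
  rw [Complex.ofReal_mul, mul_assoc]
  congr 1
  rw [Complex.ofReal_exp, Complex.ofReal_exp, ← Complex.exp_add, ← Complex.exp_add,
    ← Complex.exp_add]
  congr 1
  push_cast
  ring

include hb hκ hu hQ hX in
/-- BRIDGE: the second moment dominates the characteristic function -/
theorem bridge {t : ℝ} (ht : 0 < t) : 2 / t ^ 2 * (1 -
      (hMean N b (FF κ κ' (t * ū) t u U) / hMean N b (FF κ κ' 0 0 u U)).re) ≤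
      SpecI.ex b (SpecI.inn n) ∅ Q fun h => X h ^ 2 := by
  set W : Hgt N × ℤ → ℝ := fun p => SpecI.wt b (SpecI.inn n) ∅ Q (hz hn p) with hW
  have hWs : Summable W := W_summable hn hb hκ hQ
  have hWX : Summable fun p => W p * X (hz hn p) ^ 2 := WX_summable hn hb hκ hu hQ hX
  have hWp : ∀ p, 0 < W p := W_pos hn hb
  have hZ : 0 < ∑' p, W p := hWs.tsum_pos (fun p => (hWp p).le) (⟨fun _ => 0, rfl⟩, 0) (hWp _)
  have hZg : (0 : ℝ) < ∑' h : Hgt N, hWt N b h.1 := tsum_hWt_pos N hb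
  have hZg' : ((∑' h : Hgt N, hWt N b h.1 : ℝ) : ℂ) ≠ 0 := by exact_mod_cast hZg.ne'
  have h1 := chi_eq hn hb hκ hQ hX t
  have h0 := chi_eq hn hb hκ hQ hX 0
  rw [zero_mul] at h0
  have e0 : ∑' p : Hgt N × ℤ, ((SpecI.wt b (SpecI.inn n) ∅ Q (hz hn p) : ℝ) : ℂ) *
      Complex.exp (Complex.I * (((0 : ℝ) * X (hz hn p) : ℝ) : ℂ)) = ((∑' p, W p : ℝ) : ℂ) := by
    rw [Complex.ofReal_tsum]
    refine tsum_congr fun p => ?_
    simp [hW]
  rw [e0] at h0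
  have hcs : Summable fun p => W p * Real.cos (t * X (hz hn p)) := by
    refine Summable.of_norm_bounded hWs fun p => ?_
    rw [norm_mul, Real.norm_eq_abs, Real.norm_eq_abs, abs_of_pos (hWp p)]
    exact mul_le_of_le_one_right (hWp p).le (Real.abs_cos_le_one _)
  have e1 : (∑' p : Hgt N × ℤ, ((SpecI.wt b (SpecI.inn n) ∅ Q (hz hn p) : ℝ) : ℂ) *
      Complex.exp (Complex.I * ((t * X (hz hn p) : ℝ) : ℂ))).re =
      ∑' p, W p * Real.cos (t * X (hz hn p)) := by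
    rw [Complex.re_tsum]
    · refine tsum_congr fun p => ?_
      rw [Complex.re_ofReal_mul, mul_comm Complex.I, Complex.exp_ofReal_mul_I_re]
    · refine Summable.of_norm (hWs.congr fun p => ?_)
      rw [norm_mul, norm_eI, mul_one, Complex.norm_real, Real.norm_eq_abs, abs_of_pos (hWp p)]
  have hratio : (hMean N b (FF κ κ' (t * ū) t u U) / hMean N b (FF κ κ' 0 0 u U)).re =
      (∑' p, W p * Real.cos (t * X (hz hn p))) / ∑' p, W p := by
    have e2 : hMean N b (FF κ κ' (t * ū) t u U) / hMean N b (FF κ κ' 0 0 u U) =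
        (∑' p : Hgt N × ℤ, ((SpecI.wt b (SpecI.inn n) ∅ Q (hz hn p) : ℝ) : ℂ) *
        Complex.exp (Complex.I * ((t * X (hz hn p) : ℝ) : ℂ))) / ((∑' p, W p : ℝ) : ℂ) := by
      rw [h1, h0, mul_div_mul_right _ _ hZg']
    rw [e2, Complex.div_ofReal_re, e1]
  rw [hratio]
  have e3 : SpecI.ex b (SpecI.inn n) ∅ Q (fun h => X h ^ 2) =
      (∑' p, W p * X (hz hn p) ^ 2) / ∑' p, W p := by
    unfold SpecI.ex
    rw [← (hz hn).tsum_eq, ← (hz hn).tsum_eq (fun h => SpecI.wt b (SpecI.inn n) ∅ Q h)]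
  rw [e3]
  have e4 : 1 - (∑' p, W p * Real.cos (t * X (hz hn p))) / ∑' p, W p =
      (∑' p, W p * (1 - Real.cos (t * X (hz hn p)))) / ∑' p, W p := by
    rw [eq_div_iff hZ.ne', sub_mul, one_mul, div_mul_cancel₀ _ hZ.ne', ← hWs.tsum_sub hcs]
    exact tsum_congr fun p => by ring
  rw [e4, mul_div_assoc', div_le_div_iff_of_pos_right hZ, ← tsum_mul_left]
  refine Summable.tsum_le_tsum (fun p => ?_) ?_ hWX
  · have h5 := Real.one_sub_sq_div_two_le_cos (x := t * X (hz hn p))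
    have h6 : 2 / t ^ 2 * (1 - Real.cos (t * X (hz hn p))) ≤ X (hz hn p) ^ 2 := by
      rw [div_mul_eq_mul_div, div_le_iff₀ (by positivity)]
      nlinarith
    calc 2 / t ^ 2 * (W p * (1 - Real.cos (t * X (hz hn p))))
        = W p * (2 / t ^ 2 * (1 - Real.cos (t * X (hz hn p)))) := by ring
      _ ≤ _ := mul_le_mul_of_nonneg_left h6 (hWp p).le
  · refine Summable.mul_left _ ((hWs.sub hcs).congr fun p => by ring)

end main

end Vale.Agent.P159.TM.H968
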