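import Vale.Agent.P159.TM.H968.Ratio
import Vale.Agent.P159.TM.Spec.I

/-!
Row GAU of part (I): the massive free box of `Spec/I.lean` as a sum over the heights of the block and
a global integer.
-/

open Finset Filter Topology

namespace Vale.Agent.P159.TM.H968

open Vale.Agent.P159 Vale.Agent.P159.R2.H254 Vale.Agent.P159.H353 Vale.Agent.P159.H950

/-- face to site -/
def sit {N n : ℕ} (y : Fa N) : SpecI.V n := (((y.1 : ℕ) : ZMod n), ((y.2 : ℕ) : ZMod n))

lemma sit_succ {N : ℕ} (y : Fa N) : (sit y : SpecI.V (N + 1)) = (y.1, y.2) := by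
  unfold sit
  exact Prod.ext (ZMod.natCast_zmod_val (n := N + 1) y.1) (ZMod.natCast_zmod_val (n := N + 1) y.2)

lemma sit_bij {N n : ℕ} (hn : n = N + 1) : Function.Bijective (sit : Fa N → SpecI.V n) := by
  subst hn
  have h : (sit : Fa N → SpecI.V (N + 1)) = fun y => (y.1, y.2) := by
    funext y; exact sit_succ y
  rw [h]
  exact Function.bijective_id

/-- faces and sites -/
noncomputable def siE {N n : ℕ} (hn : n = N + 1) : Fa N ≃ SpecI.V n :=
  Equiv.ofBijective sit (sit_bij hn)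

lemma siE_apply {N n : ℕ} (hn : n = N + 1) (y : Fa N) : siE hn y = sit y := rfl

lemma prod_zmod {n : ℕ} [NeZero n] (f : ZMod n → ℝ) :
    ∏ x : ZMod n, f x = ∏ i ∈ range n, f (i : ZMod n) := by
  obtain ⟨N, rfl⟩ : ∃ N, n = N + 1 := Nat.exists_eq_succ_of_ne_zero (NeZero.ne n)
  have h1 : ∏ x : ZMod (N + 1), f x = ∏ x : ZMod (N + 1), f ((ZMod.val x : ℕ) : ZMod (N + 1)) :=
    prod_congr rfl fun x _ => by rw [ZMod.natCast_zmod_val]
  rw [h1]
  exact Fin.prod_univ_eq_prod_range (fun i : ℕ => f (i : ZMod (N + 1))) (N + 1)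

lemma prod_drop {N : ℕ} (G : ℕ → ℝ) :
    ∏ i ∈ range (N + 1), (if i + 1 < N + 1 then G i else 1) = ∏ i : Fin N, G i := by
  rw [prod_range_succ, if_neg (by omega), mul_one, Fin.prod_univ_eq_prod_range G N]
  exact prod_congr rfl fun i hi => by rw [if_pos (by have := mem_range.1 hi; omega)]

lemma prod_one {n : ℕ} [NeZero n] (G : ℕ → ℕ → ℝ) (F : ZMod n → ZMod n → ℝ)
    (hF : ∀ i < n, ∀ j < n, F (i : ZMod n) (j : ZMod n) = G i j) :
    ∏ x : ZMod n, ∏ y : ZMod n, (if x.val + 1 < n then F x y else 1) =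
      ∏ i ∈ range n, if i + 1 < n then ∏ j ∈ range n, G i j else 1 := by
  rw [prod_zmod]
  refine prod_congr rfl fun i hi => ?_
  have hi' := mem_range.1 hi
  rw [prod_zmod, ZMod.val_natCast_of_lt hi']
  split_ifs with h
  · exact prod_congr rfl fun j hj => hF i hi' j (mem_range.1 hj)
  · exact prod_const_one

lemma prod_two {n : ℕ} [NeZero n] (G : ℕ → ℕ → ℝ) (F : ZMod n → ZMod n → ℝ)
    (hF : ∀ i < n, ∀ j < n, F (i : ZMod n) (j : ZMod n) = G i j) :
    ∏ x : ZMod n, ∏ y : ZMod n, (if y.val + 1 < n then F x y else 1) =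
      ∏ i ∈ range n, ∏ j ∈ range n, if j + 1 < n then G i j else 1 := by
  rw [prod_zmod]
  refine prod_congr rfl fun i hi => ?_
  rw [prod_zmod]
  refine prod_congr rfl fun j hj => ?_
  rw [ZMod.val_natCast_of_lt (mem_range.1 hj)]
  split_ifs with h
  · exact hF i (mem_range.1 hi) j (mem_range.1 hj)
  · rfl

lemma wt_prod {N n : ℕ} [NeZero n] (hn : n = N + 1) {b : ℝ} (hb : 0 ≤ b) (h : SpecI.V n → ℤ) :
    ∏ e ∈ SpecI.inn n, wI b (h (SpecI.tgt e) - h e.1) = hWt N b fun y => h (sit y) := by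
  have e0 : ∏ e ∈ SpecI.inn n, wI b (h (SpecI.tgt e) - h e.1) =
      (∏ x : ZMod n, ∏ y : ZMod n, (if x.val + 1 < n then
        (fun x y : ZMod n => wI b (h (x + 1, y) - h (x, y))) x y else 1)) *
      ∏ x : ZMod n, ∏ y : ZMod n, (if y.val + 1 < n then
        (fun x y : ZMod n => wI b (h (x, y + 1) - h (x, y))) x y else 1) := by
    unfold SpecI.inn
    rw [prod_filter, Fintype.prod_prod_type, ← prod_mul_distrib, Fintype.prod_prod_type]
    refine prod_congr rfl fun x _ => ?_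
    rw [← prod_mul_distrib]
    refine prod_congr rfl fun y _ => ?_
    rw [Fintype.prod_bool, mul_comm]
    simp [SpecI.tgt]
  rw [e0, prod_one (fun i j => wI b (h (((i + 1 : ℕ) : ZMod n), (j : ZMod n)) -
      h ((i : ZMod n), (j : ZMod n)))) _ (fun i _ j _ => by push_cast; rfl),
    prod_two (fun i j => wI b (h ((i : ZMod n), ((j + 1 : ℕ) : ZMod n)) -
      h ((i : ZMod n), (j : ZMod n)))) _ (fun i _ j _ => by push_cast; rfl)]
  subst hn
  unfold hWt
  rw [prod_drop]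
  congr 1
  · refine prod_congr rfl fun i _ => ?_
    rw [← Fin.prod_univ_eq_prod_range (fun j : ℕ => wI b (h ((((i : ℕ) + 1 : ℕ) : ZMod (N + 1)),
      (j : ZMod (N + 1))) - h (((i : ℕ) : ZMod (N + 1)), (j : ZMod (N + 1)))))]
    refine prod_congr rfl fun j _ => ?_
    rw [bes_eq hb]
    rfl
  · rw [← Fin.prod_univ_eq_prod_range (fun i : ℕ => ∏ j ∈ range (N + 1), if j + 1 < N + 1 then
      wI b (h ((i : ZMod (N + 1)), ((j + 1 : ℕ) : ZMod (N + 1))) - h ((i : ZMod (N + 1)),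
      (j : ZMod (N + 1)))) else 1)]
    refine prod_congr rfl fun i _ => ?_
    rw [prod_drop]
    refine prod_congr rfl fun j _ => ?_
    rw [bes_eq hb]
    rfl

/-- the heights of the block and a global integer -/
noncomputable def hz {N n : ℕ} (hn : n = N + 1) : Hgt N × ℤ ≃ (SpecI.V n → ℤ) where
  toFun p x := p.1.1 ((siE hn).symm x) + p.2
  invFun h := (⟨fun y => h (siE hn y) - h (siE hn (0, 0)), by simp⟩, h (siE hn (0, 0)))
  left_inv := by
    rintro ⟨⟨g, hg⟩, z⟩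
    simp [hg]
  right_inv := by
    intro h
    funext x
    simp

lemma hz_sit {N n : ℕ} (hn : n = N + 1) (p : Hgt N × ℤ) (y : Fa N) :
    hz hn p (sit y) = p.1.1 y + p.2 := by
  show p.1.1 ((siE hn).symm (siE hn y)) + p.2 = _
  rw [Equiv.symm_apply_apply]

lemma hWt_shift (N : ℕ) (b : ℝ) (g : Fa N → ℤ) (z : ℤ) :
    hWt N b (fun y => g y + z) = hWt N b g := by
  unfold hWt
  simp only [add_sub_add_right_eq_sub]

lemma wt_hz {N n : ℕ} [NeZero n] (hn : n = N + 1) {b : ℝ} (hb : 0 ≤ b)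
    (Q : (SpecI.V n → ℤ) → ℝ) (p : Hgt N × ℤ) :
    SpecI.wt b (SpecI.inn n) ∅ Q (hz hn p) =
      hWt N b p.1.1 * Real.exp (-(Q (hz hn p)) / 2) := by
  unfold SpecI.wt
  rw [wt_prod hn hb]
  have e : (fun y => hz hn p (sit y)) = fun y => p.1.1 y + p.2 := by
    funext y; exact hz_sit hn p y
  rw [e, hWt_shift]
  simp

end Vale.Agent.P159.TM.H968
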