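import Vale.Agent.P159.TM.H968.Bound

/-!
Row GAU of part (I): the cells of `Spec/I.lean` as face functions, the mass form.
-/

open Finset Filter Topology

namespace Vale.Agent.P159.TM.H968

open Vale.Agent.P159 Vale.Agent.P159.R2.H254 Vale.Agent.P159.H353 Vale.Agent.P159.H950

/-- face function of the cell `(i, j)` of level `s`, mean one -/
noncomputable def cellf (s i j k : ℕ) : Fa (2 ^ k - 1) → ℝ := fun x =>
  if (x.1 : ℕ) / 2 ^ (k - s) = i ∧ (x.2 : ℕ) / 2 ^ (k - s) = j then 4 ^ s else 0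

lemma cellf_nonneg (s i j k : ℕ) (x : Fa (2 ^ k - 1)) : 0 ≤ cellf s i j k x := by
  unfold cellf; split_ifs <;> positivity

lemma sum_div_eq {M r c : ℕ} (hr : 0 < r) (hc : c * r + r ≤ M) (f : ℕ → ℝ) :
    ∑ y ∈ range M, (if y / r = c then f y else 0) = ∑ i ∈ range r, f (c * r + i) := by
  rw [← sum_filter]
  have e : (range M).filter (fun y => y / r = c) = Ico (c * r) (c * r + r) := by
    ext y
    simp only [mem_filter, mem_range, mem_Ico]
    rw [Nat.div_eq_iff hr]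
    have : c * r ≤ (c * r + r - 1) := by omega
    constructor
    · rintro ⟨h1, h2, h3⟩; constructor <;> omega
    · rintro ⟨h1, h2⟩; refine ⟨by omega, by omega, by omega⟩
  rw [e, sum_Ico_eq_sum_range]
  congr 1
  congr 1
  omega

lemma cellf_sum_mul {s i j k : ℕ} (hs : s ≤ k) (hi : i < 2 ^ s) (hj : j < 2 ^ s)
    (H : ℕ → ℕ → ℝ) :
    ∑ x : Fa (2 ^ k - 1), cellf s i j k x * H x.1 x.2 =
      4 ^ s * ∑ a ∈ range (2 ^ (k - s)), ∑ c ∈ range (2 ^ (k - s)),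
        H (i * 2 ^ (k - s) + a) (j * 2 ^ (k - s) + c) := by
  have hr : 0 < 2 ^ (k - s) := by positivity
  have hk : 2 ^ k - 1 + 1 = 2 ^ k := Nat.sub_add_cancel Nat.one_le_two_pow
  have hks : 2 ^ s * 2 ^ (k - s) = 2 ^ k := by rw [← pow_add]; congr 1; omega
  have hb : ∀ i < 2 ^ s, i * 2 ^ (k - s) + 2 ^ (k - s) ≤ 2 ^ k - 1 + 1 := by
    intro i hi
    rw [hk, ← hks]
    calc i * 2 ^ (k - s) + 2 ^ (k - s) = (i + 1) * 2 ^ (k - s) := by ring
      _ ≤ _ := Nat.mul_le_mul_right _ hi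
  rw [Fintype.sum_prod_type]
  have e1 : ∀ x : Fin (2 ^ k - 1 + 1), ∑ y : Fin (2 ^ k - 1 + 1),
      cellf s i j k (x, y) * H x y = (if (x : ℕ) / 2 ^ (k - s) = i then
        4 ^ s * ∑ c ∈ range (2 ^ (k - s)), H x (j * 2 ^ (k - s) + c) else 0) := by
    intro x
    unfold cellf
    simp only
    split_ifs with hx
    · rw [← sum_div_eq hr (hb j hj) (fun y => H x y), mul_sum,
        ← Fin.sum_univ_eq_sum_range (fun y => 4 ^ s * if y / 2 ^ (k - s) = j then H x y else 0)]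
      refine sum_congr rfl fun y _ => ?_
      simp only [hx, true_and]
      split_ifs <;> ring
    · refine sum_eq_zero fun y _ => ?_
      rw [if_neg (fun h => hx h.1), zero_mul]
  rw [sum_congr rfl fun x _ => e1 x,
    Fin.sum_univ_eq_sum_range (fun x => if x / 2 ^ (k - s) = i then
        4 ^ s * ∑ c ∈ range (2 ^ (k - s)), H x (j * 2 ^ (k - s) + c) else 0),
    sum_div_eq hr (hb i hi) (fun x => 4 ^ s * ∑ c ∈ range (2 ^ (k - s)),
      H x (j * 2 ^ (k - s) + c)), ← mul_sum]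

lemma cellf_sum {s i j k : ℕ} (hs : s ≤ k) (hi : i < 2 ^ s) (hj : j < 2 ^ s) :
    ∑ x, cellf s i j k x = 4 ^ k := by
  have h := cellf_sum_mul hs hi hj fun _ _ => 1
  simp only [mul_one, sum_const, card_range, nsmul_eq_mul] at h
  rw [h]
  have : (4 : ℝ) = 2 * 2 := by norm_num
  rw [this, mul_pow, mul_pow]
  have e : (2 : ℝ) ^ k = 2 ^ s * 2 ^ (k - s) := by rw [← pow_add]; congr 1; omega
  rw [e]
  push_cast
  ring

lemma cellf_tot {s k : ℕ} (hs : s ≤ k) (x : Fa (2 ^ k - 1)) :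
    ∑ c ∈ range (2 ^ s) ×ˢ range (2 ^ s), cellf s c.1 c.2 k x = 4 ^ s := by
  have hk : 2 ^ k - 1 + 1 = 2 ^ k := Nat.sub_add_cancel Nat.one_le_two_pow
  have hks : 2 ^ s * 2 ^ (k - s) = 2 ^ k := by rw [← pow_add]; congr 1; omega
  have hlt : ∀ y : Fin (2 ^ k - 1 + 1), (y : ℕ) / 2 ^ (k - s) < 2 ^ s := by
    intro y
    rw [Nat.div_lt_iff_lt_mul (by positivity), hks]
    have := y.2
    omega
  rw [sum_eq_single ((x.1 : ℕ) / 2 ^ (k - s), (x.2 : ℕ) / 2 ^ (k - s))]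
  · simp [cellf]
  · rintro ⟨i, j⟩ _ hij
    unfold cellf
    rw [if_neg]
    rintro ⟨h1, h2⟩
    exact hij (Prod.ext h1.symm h2.symm)
  · intro h
    exact absurd (mem_product.2 ⟨mem_range.2 (hlt x.1), mem_range.2 (hlt x.2)⟩) h

lemma four_pow (k : ℕ) : (((2 ^ k - 1 : ℕ) : ℝ) + 1) ^ 2 = 4 ^ k := by
  rw [Nat.cast_sub Nat.one_le_two_pow]
  push_cast
  rw [sub_add_cancel, ← pow_mul, mul_comm, pow_mul]
  norm_num

lemma avg_eq {s i j k : ℕ} (hs : s ≤ k) (hi : i < 2 ^ s) (hj : j < 2 ^ s)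
    (h : SpecI.V (2 ^ k) → ℤ) :
    SpecI.avg (2 ^ (k - s)) (i, j) h = pr (cellf s i j k) fun y => h (sit y) := by
  unfold SpecI.avg pr
  have h1 := cellf_sum_mul hs hi hj fun a c => (h ((a : ZMod (2 ^ k)), (c : ZMod (2 ^ k))) : ℝ)
  have e : ∑ x : Fa (2 ^ k - 1), cellf s i j k x * (h (sit x) : ℝ) =
      ∑ x : Fa (2 ^ k - 1), cellf s i j k x *
        (fun a c : ℕ => (h ((a : ZMod (2 ^ k)), (c : ZMod (2 ^ k))) : ℝ)) x.1 x.2 := rfl
  rw [e, h1, four_pow]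
  have e2 : (4 : ℝ) ^ k = 4 ^ s * (((2 ^ (k - s) : ℕ) : ℝ) ^ 2) := by
    push_cast
    rw [← pow_mul, mul_comm (k - s) 2, pow_mul]
    norm_num
    rw [← pow_add]
    congr 1
    omega
  rw [e2, mul_div_mul_left _ _ (by positivity)]

lemma pr_shift {N : ℕ} {u : Fa N → ℝ} {c : ℝ} (h : ∑ x, u x = c * ((N : ℝ) + 1) ^ 2)
    (g : Fa N → ℤ) (z : ℤ) :
    pr u (fun y => g y + z) = pr (fun x => u x - c) g + c * (hm g + z) := by
  have hL : ((N : ℝ) + 1) ^ 2 ≠ 0 := by positivity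
  unfold hm pr
  rw [← mul_left_inj' hL, add_mul, div_mul_cancel₀ _ hL, div_mul_cancel₀ _ hL, mul_assoc, add_mul,
    div_mul_cancel₀ _ hL]
  have e1 : ∑ x, u x * (((g x + z : ℤ)) : ℝ) = ∑ x, u x * (g x : ℝ) + (∑ x, u x) * z := by
    rw [sum_mul, ← sum_add_distrib]
    exact sum_congr rfl fun x _ => by push_cast; ring
  have e2 : ∑ x, (u x - c) * (g x : ℝ) = ∑ x, u x * (g x : ℝ) - c * ∑ x, 1 * (g x : ℝ) := by
    rw [mul_sum, ← sum_sub_distrib]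
    exact sum_congr rfl fun x _ => by ring
  rw [e1, e2, h]
  ring

lemma massA_eq {κ : ℝ} {k a : ℕ} (ha : a ≤ k) (hn : 2 ^ k = (2 ^ k - 1) + 1)
    (p : Hgt (2 ^ k - 1) × ℤ) :
    SpecI.massA κ k a (hz hn p) = κ ^ 2 * (hm p.1.1 + p.2) ^ 2 +
      ∑ c : ↥(range (2 ^ a) ×ˢ range (2 ^ a)),
        (κ / 2 ^ a * pr (fun x => cellf a c.1.1 c.1.2 k x - 1) p.1.1) ^ 2 := by
  unfold SpecI.massA
  set y : ℕ × ℕ → ℝ := fun c => pr (fun x => cellf a c.1 c.2 k x - 1) p.1.1 with hy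
  set w : ℝ := hm p.1.1 + p.2 with hw
  have e1 : ∀ c ∈ range (2 ^ a) ×ˢ range (2 ^ a),
      SpecI.avg (2 ^ (k - a)) c (hz hn p) = y c + w := by
    rintro ⟨i, j⟩ hc
    rw [mem_product, mem_range, mem_range] at hc
    rw [avg_eq ha hc.1 hc.2]
    have e2 : (fun y => hz hn p (sit y)) = fun y => p.1.1 y + p.2 := by
      funext y; exact hz_sit hn p y
    rw [e2, pr_shift (c := 1) (by rw [cellf_sum ha hc.1 hc.2, four_pow, one_mul])]
    simp only [hy, hw, one_mul]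
  have e3 : ∑ c ∈ range (2 ^ a) ×ˢ range (2 ^ a), SpecI.avg (2 ^ (k - a)) c (hz hn p) ^ 2 =
      ∑ c ∈ range (2 ^ a) ×ˢ range (2 ^ a), y c ^ 2 +
        2 * w * ∑ c ∈ range (2 ^ a) ×ˢ range (2 ^ a), y c + 4 ^ a * w ^ 2 := by
    have e4 : (4 : ℝ) ^ a * w ^ 2 = ∑ _c ∈ range (2 ^ a) ×ˢ range (2 ^ a), w ^ 2 := by
      rw [sum_const, card_product, card_range, nsmul_eq_mul]
      push_cast
      rw [← mul_pow]
      norm_num
    rw [e4, mul_sum, ← sum_add_distrib, ← sum_add_distrib]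
    exact sum_congr rfl fun c hc => by rw [e1 c hc]; ring
  have e5 : ∑ c ∈ range (2 ^ a) ×ˢ range (2 ^ a), y c = 0 := by
    simp only [hy]
    unfold pr
    rw [← sum_div, sum_comm]
    have e6 : ∀ x : Fa (2 ^ k - 1), ∑ c ∈ range (2 ^ a) ×ˢ range (2 ^ a),
        (cellf a c.1 c.2 k x - 1) * (p.1.1 x : ℝ) = 0 := by
      intro x
      rw [← sum_mul, sum_sub_distrib, cellf_tot ha, sum_const, card_product, card_range,
        nsmul_eq_mul]
      push_cast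
      rw [← mul_pow]
      norm_num
    rw [sum_congr rfl fun x _ => e6 x]
    simp
  rw [e3, e5]
  have e7 : ∑ c : ↥(range (2 ^ a) ×ˢ range (2 ^ a)),
      (κ / 2 ^ a * pr (fun x => cellf a c.1.1 c.1.2 k x - 1) p.1.1) ^ 2 =
      κ ^ 2 / 4 ^ a * ∑ c ∈ range (2 ^ a) ×ˢ range (2 ^ a), y c ^ 2 := by
    rw [sum_coe_sort (range (2 ^ a) ×ˢ range (2 ^ a)) fun c => (κ / 2 ^ a * y c) ^ 2, mul_sum]
    refine sum_congr rfl fun c _ => ?_
    rw [mul_pow, div_pow, ← pow_mul, mul_comm a 2, pow_mul]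
    norm_num
  rw [e7]
  have h4 : (4 : ℝ) ^ a ≠ 0 := by positivity
  field_simp
  ring

end Vale.Agent.P159.TM.H968
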