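import Vale.Agent.P159.R2.H254.Modes2

/-!
Row BLK of part (I): the discrete cosine transform on the faces of the square block: completeness,
orthogonality, Parseval, and the energy of a combination of cosines.
-/

open Finset

namespace Vale.Agent.P159.TM.H968

open Vale.Agent.P159 Vale.Agent.P159.R2.H254

lemma dirich (θ : ℝ) (L : ℕ) :
    2 * Real.sin (θ / 2) * ∑ m ∈ range L, Real.cos (m * θ) =
      Real.sin ((L - 1 / 2) * θ) + Real.sin (θ / 2) := by
  induction L with
  | zero =>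
    have : (((0 : ℕ) : ℝ) - 1 / 2) * θ = -(θ / 2) := by push_cast; ring
    rw [this, Real.sin_neg]
    simp
  | succ L ih =>
    rw [sum_range_succ, mul_add, ih]
    have e1 : ((L + 1 : ℕ) - 1 / 2 : ℝ) * θ = L * θ + θ / 2 := by push_cast; ring
    have e2 : ((L : ℝ) - 1 / 2) * θ = L * θ - θ / 2 := by ring
    rw [e1, e2, Real.sin_add, Real.sin_sub]
    ring

lemma dsum (L q : ℕ) (h0 : 0 < q) (h1 : q < 2 * L) :
    ∑ m ∈ range L, Real.cos (m * (Real.pi * q / L)) = (1 - (-1) ^ q) / 2 := by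
  have hL : 0 < L := by omega
  have hL' : (0 : ℝ) < L := by exact_mod_cast hL
  have h := dirich (Real.pi * q / L) L
  have hs : 0 < Real.sin (Real.pi * q / L / 2) := by
    apply Real.sin_pos_of_pos_of_lt_pi
    · have : (0 : ℝ) < q := by exact_mod_cast h0
      have := Real.pi_pos
      positivity
    · rw [div_div, div_lt_iff₀ (by positivity)]
      have : (q : ℝ) < 2 * L := by exact_mod_cast h1
      nlinarith [Real.pi_pos]
  have e1 : ((L : ℝ) - 1 / 2) * (Real.pi * q / L) = q * Real.pi - Real.pi * q / L / 2 := by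
    field_simp
  rw [e1, Real.sin_sub, Real.sin_nat_mul_pi, Real.cos_nat_mul_pi] at h
  have h2 : 2 * Real.sin (Real.pi * q / L / 2) *
      (∑ m ∈ range L, Real.cos (m * (Real.pi * q / L)) - (1 - (-1) ^ q) / 2) = 0 := by
    rw [mul_sub, h]; ring
  rcases mul_eq_zero.1 h2 with h3 | h3
  · exact absurd h3 (by positivity)
  · linarith

lemma cnrm_pos (m : ℕ) : 0 < cnrm m := by
  unfold cnrm; split_ifs <;> norm_num

lemma cnrm_le (m : ℕ) : cnrm m ≤ 1 := by
  unfold cnrm; split_ifs <;> norm_num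

lemma half_le_cnrm (m : ℕ) : 1 / 2 ≤ cnrm m := by
  unfold cnrm; split_ifs <;> norm_num

/-- completeness of the cosines in dimension one -/
lemma comp_nat (L i j : ℕ) (hi : i < L) (hj : j < L) :
    ∑ m ∈ range L, (cnrm m)⁻¹ * (Real.cos (m * Real.pi * (((i : ℝ) + 1 / 2) / L)) *
      Real.cos (m * Real.pi * (((j : ℝ) + 1 / 2) / L))) = if i = j then (L : ℝ) else 0 := by
  have hL : 0 < L := by omega
  have hL' : (0 : ℝ) < L := by exact_mod_cast hL
  have key : ∀ i j : ℕ, i ≤ j → i < L → j < L →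
      ∑ m ∈ range L, (cnrm m)⁻¹ * (Real.cos (m * Real.pi * (((i : ℝ) + 1 / 2) / L)) *
      Real.cos (m * Real.pi * (((j : ℝ) + 1 / 2) / L))) = if i = j then (L : ℝ) else 0 := by
    intro i j hij hi hj
    have e1 : ∀ m ∈ range L, (cnrm m)⁻¹ * (Real.cos (m * Real.pi * (((i : ℝ) + 1 / 2) / L)) *
        Real.cos (m * Real.pi * (((j : ℝ) + 1 / 2) / L))) =
        Real.cos (m * (Real.pi * (j - i : ℕ) / L)) +
          Real.cos (m * (Real.pi * (i + j + 1 : ℕ) / L)) - if m = 0 then 1 else 0 := by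
      intro m _
      have c1 : (m : ℝ) * (Real.pi * (j - i : ℕ) / L) =
          m * Real.pi * (((j : ℝ) + 1 / 2) / L) - m * Real.pi * (((i : ℝ) + 1 / 2) / L) := by
        rw [Nat.cast_sub hij]; field_simp; ring
      have c2 : (m : ℝ) * (Real.pi * (i + j + 1 : ℕ) / L) =
          m * Real.pi * (((j : ℝ) + 1 / 2) / L) + m * Real.pi * (((i : ℝ) + 1 / 2) / L) := by
        push_cast; field_simp; ring
      rw [c1, c2, Real.cos_add, Real.cos_sub]
      by_cases hm : m = 0
      · subst hm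
        simp [cnrm]
      · simp only [cnrm, hm, if_false]
        ring
    rw [sum_congr rfl e1, sum_sub_distrib, sum_add_distrib, sum_ite_eq' (range L) 0,
      if_pos (mem_range.2 hL), dsum L (i + j + 1) (by omega) (by omega)]
    split_ifs with h
    · subst h
      simp only [Nat.sub_self, Nat.cast_zero, mul_zero, zero_div, Real.cos_zero, sum_const,
        card_range, nsmul_eq_mul, mul_one]
      have : ((-1 : ℝ)) ^ (i + i + 1) = -1 := by
        rw [pow_succ, ← two_mul, pow_mul]; norm_num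
      rw [this]; ring
    · rw [dsum L (j - i) (by omega) (by omega)]
      have h3 : ((-1 : ℝ)) ^ (i + j + 1) = -(-1) ^ (j - i) := by
        have : i + j + 1 = (j - i) + 2 * i + 1 := by omega
        rw [this, pow_succ, pow_add, pow_mul]; norm_num
      rw [h3]; ring
  rcases le_total i j with h | h
  · exact key i j h hi hj
  · have := key j i h hj hi
    rw [show (if i = j then (L : ℝ) else 0) = if j = i then (L : ℝ) else 0 from by
      simp only [eq_comm], ← this]
    exact sum_congr rfl fun m _ => by ring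

/-- one-dimensional cosine at the centre of a face -/
noncomputable def c1 (N m : ℕ) (i : Fin (N + 1)) : ℝ := Real.cos (m * Real.pi * ctr N i)

lemma comp1 (N : ℕ) (i j : Fin (N + 1)) :
    ∑ m : Fin (N + 1), (cnrm m)⁻¹ * (c1 N m i * c1 N m j) = if i = j then (N + 1 : ℝ) else 0 := by
  have h := comp_nat (N + 1) i j i.2 j.2
  rw [← Fin.sum_univ_eq_sum_range (fun m => (cnrm m)⁻¹ *
    (Real.cos (m * Real.pi * (((i : ℝ) + 1 / 2) / ((N + 1 : ℕ) : ℝ))) *
      Real.cos (m * Real.pi * (((j : ℝ) + 1 / 2) / ((N + 1 : ℕ) : ℝ)))))] at h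
  have : (if (i : ℕ) = j then (((N + 1 : ℕ)) : ℝ) else 0) = if i = j then (N + 1 : ℝ) else 0 := by
    simp only [Fin.ext_iff]; push_cast; rfl
  rw [← this, ← h]
  refine sum_congr rfl fun m _ => ?_
  simp only [c1, ctr]
  push_cast
  rfl

lemma orth1 (N : ℕ) (m l : Fin (N + 1)) :
    ∑ i : Fin (N + 1), c1 N m i * c1 N l i = if m = l then cnrm m * (N + 1) else 0 := by
  have hN : (0 : ℝ) < (N : ℝ) + 1 := by positivity
  set P : Matrix (Fin (N + 1)) (Fin (N + 1)) ℝ := fun m i => c1 N m i with hP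
  set Q : Matrix (Fin (N + 1)) (Fin (N + 1)) ℝ := fun i m =>
    (cnrm m)⁻¹ * c1 N m i / (N + 1) with hQ
  have h1 : Q * P = 1 := by
    ext i j
    rw [Matrix.mul_apply, Matrix.one_apply]
    have := comp1 N i j
    have e : ∑ m : Fin (N + 1), Q i m * P m j =
        (∑ m : Fin (N + 1), (cnrm m)⁻¹ * (c1 N m i * c1 N m j)) / (N + 1) := by
      rw [sum_div]
      exact sum_congr rfl fun m _ => by simp only [hP, hQ]; ring
    rw [e, this]
    split_ifs
    · field_simp
    · simp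
  have h2 : P * Q = 1 := _root_.mul_eq_one_comm.1 h1
  have h3 := congrFun (congrFun h2 m) l
  rw [Matrix.mul_apply, Matrix.one_apply] at h3
  have e : ∑ i : Fin (N + 1), P m i * Q i l =
      (∑ i : Fin (N + 1), c1 N m i * c1 N l i) / (cnrm l * (N + 1)) := by
    rw [sum_div]
    refine sum_congr rfl fun i _ => ?_
    have := (cnrm_pos l).ne'
    simp only [hP, hQ]
    field_simp
  rw [e] at h3
  have h4 : cnrm l * (N + 1) ≠ 0 := (mul_pos (cnrm_pos l) hN).ne'
  rw [div_eq_iff h4] at h3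
  rw [h3]
  split_ifs with h
  · rw [h, one_mul]
  · rw [zero_mul]

/-- two-dimensional cosine at the centre of a face -/
noncomputable def c2 (N : ℕ) (k : ℕ × ℕ) (x : Fa N) : ℝ := c1 N k.1 x.1 * c1 N k.2 x.2

/-- normalisation of the mode `k` -/
noncomputable def nr (k : ℕ × ℕ) : ℝ := cnrm k.1 * cnrm k.2

lemma nr_pos (k : ℕ × ℕ) : 0 < nr k := mul_pos (cnrm_pos _) (cnrm_pos _)

/-- index of a mode -/
def ix {N : ℕ} (k : Fa N) : ℕ × ℕ := (k.1, k.2)

lemma ix_inj {N : ℕ} : Function.Injective (ix (N := N)) := by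
  intro k l h
  simp only [ix, Prod.mk.injEq] at h
  exact Prod.ext (Fin.ext h.1) (Fin.ext h.2)

lemma comp2 (N : ℕ) (x y : Fa N) :
    ∑ k : Fa N, (nr (ix k))⁻¹ * (c2 N (ix k) x * c2 N (ix k) y) =
      if x = y then ((N : ℝ) + 1) ^ 2 else 0 := by
  have h1 := comp1 N x.1 y.1
  have h2 := comp1 N x.2 y.2
  have e : ∑ k : Fa N, (nr (ix k))⁻¹ * (c2 N (ix k) x * c2 N (ix k) y) =
      (∑ m : Fin (N + 1), (cnrm m)⁻¹ * (c1 N m x.1 * c1 N m y.1)) *
        ∑ m : Fin (N + 1), (cnrm m)⁻¹ * (c1 N m x.2 * c1 N m y.2) := by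
    rw [Fintype.sum_prod_type, sum_mul_sum]
    refine sum_congr rfl fun i _ => sum_congr rfl fun j _ => ?_
    simp only [nr, ix, c2, mul_inv]
    ring
  rw [e, h1, h2]
  by_cases hx : x.1 = y.1 <;> by_cases hy : x.2 = y.2
  · have : x = y := Prod.ext hx hy
    rw [if_pos hx, if_pos hy, if_pos this]; ring
  · rw [if_neg hy, if_neg (fun h => hy (congrArg Prod.snd h)), mul_zero]
  · rw [if_neg hx, if_neg (fun h => hx (congrArg Prod.fst h)), zero_mul]
  · rw [if_neg hx, if_neg (fun h => hx (congrArg Prod.fst h)), zero_mul]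

lemma orth2 (N : ℕ) (k l : Fa N) :
    ∑ x : Fa N, c2 N (ix k) x * c2 N (ix l) x =
      if k = l then nr (ix k) * ((N : ℝ) + 1) ^ 2 else 0 := by
  have h1 := orth1 N k.1 l.1
  have h2 := orth1 N k.2 l.2
  have e : ∑ x : Fa N, c2 N (ix k) x * c2 N (ix l) x =
      (∑ i : Fin (N + 1), c1 N k.1 i * c1 N l.1 i) *
        ∑ i : Fin (N + 1), c1 N k.2 i * c1 N l.2 i := by
    rw [Fintype.sum_prod_type, sum_mul_sum]
    refine sum_congr rfl fun i _ => sum_congr rfl fun j _ => ?_
    simp only [ix, c2]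
    ring
  rw [e, h1, h2]
  by_cases hx : k.1 = l.1 <;> by_cases hy : k.2 = l.2
  · have : k = l := Prod.ext hx hy
    rw [if_pos hx, if_pos hy, if_pos this]
    simp only [nr, ix]; ring
  · rw [if_neg hy, if_neg (fun h => hy (congrArg Prod.snd h)), mul_zero]
  · rw [if_neg hx, if_neg (fun h => hx (congrArg Prod.fst h)), zero_mul]
  · rw [if_neg hx, if_neg (fun h => hx (congrArg Prod.fst h)), zero_mul]

/-- the cosine coefficient of a function on the faces -/
noncomputable def dct (N : ℕ) (u : Fa N → ℝ) (k : ℕ × ℕ) : ℝ :=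
  (∑ x, u x * c2 N k x) / ((N : ℝ) + 1) ^ 2

/-- inversion -/
lemma inv2 (N : ℕ) (u : Fa N → ℝ) (x : Fa N) :
    ∑ k : Fa N, (nr (ix k))⁻¹ * dct N u (ix k) * c2 N (ix k) x = u x := by
  have hN : ((N : ℝ) + 1) ^ 2 ≠ 0 := by positivity
  have e : ∑ k : Fa N, (nr (ix k))⁻¹ * dct N u (ix k) * c2 N (ix k) x =
      (∑ y, u y * ∑ k : Fa N, (nr (ix k))⁻¹ * (c2 N (ix k) y * c2 N (ix k) x)) /
        ((N : ℝ) + 1) ^ 2 := by
    have e1 : ∀ k : Fa N, (nr (ix k))⁻¹ * dct N u (ix k) * c2 N (ix k) x =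
        (∑ y, u y * ((nr (ix k))⁻¹ * (c2 N (ix k) y * c2 N (ix k) x))) / ((N : ℝ) + 1) ^ 2 := by
      intro k
      unfold dct
      rw [mul_div_assoc', div_mul_eq_mul_div, mul_sum, sum_mul]
      congr 1
      exact sum_congr rfl fun y _ => by ring
    rw [sum_congr rfl fun k _ => e1 k, ← sum_div, sum_comm]
    congr 1
    exact sum_congr rfl fun y _ => by rw [mul_sum]
  rw [e]
  simp only [comp2, mul_ite, mul_zero]
  rw [sum_ite_eq' univ x, if_pos (mem_univ x)]
  field_simp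

/-- the pairing of two functions -/
lemma pair_dct (N : ℕ) (u g : Fa N → ℝ) :
    (∑ x, u x * g x) / ((N : ℝ) + 1) ^ 2 =
      ∑ k : Fa N, (nr (ix k))⁻¹ * dct N u (ix k) * dct N g (ix k) := by
  have e : ∀ x, u x * g x = ∑ k : Fa N, (nr (ix k))⁻¹ * dct N u (ix k) * (g x * c2 N (ix k) x) := by
    intro x
    conv_lhs => rw [← inv2 N u x]
    rw [sum_mul]
    exact sum_congr rfl fun k _ => by ring
  rw [sum_congr rfl fun x _ => e x, sum_comm, sum_div]
  refine sum_congr rfl fun k _ => ?_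
  rw [← mul_sum, mul_div_assoc]
  rfl

/-- Parseval -/
lemma parseval (N : ℕ) (u : Fa N → ℝ) :
    (∑ x, u x ^ 2) / ((N : ℝ) + 1) ^ 2 = ∑ k : Fa N, (nr (ix k))⁻¹ * dct N u (ix k) ^ 2 := by
  have h := pair_dct N u u
  have e1 : ∑ x, u x * u x = ∑ x, u x ^ 2 := sum_congr rfl fun x _ => by ring
  rw [e1] at h
  rw [h]
  exact sum_congr rfl fun k _ => by ring

end Vale.Agent.P159.TM.H968
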