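import Mathlib

/-!
Row GAU of part (I): Gaussian integrals of a quadratic form, completing the square.
-/

open Finset MeasureTheory

namespace Vale.Agent.P159.TM.H968

section gau

variable {ι : Type*} [Fintype ι]

/-- bilinear form of a matrix -/
def bm (M : ι → ι → ℝ) (σ τ : ι → ℝ) : ℝ := ∑ c, ∑ d, σ c * τ d * M c d

lemma bm_symm {M : ι → ι → ℝ} (hM : ∀ c d, M c d = M d c) (σ τ : ι → ℝ) :
    bm M σ τ = bm M τ σ := by
  unfold bm
  rw [sum_comm]
  refine sum_congr rfl fun c _ => sum_congr rfl fun d _ => ?_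
  rw [hM d c]; ring

lemma bm_sub_smul (M : ι → ι → ℝ) (σ b : ι → ℝ) (t : ℝ) :
    bm M (fun c => σ c - t * b c) (fun c => σ c - t * b c) =
      bm M σ σ - t * bm M σ b - t * bm M b σ + t ^ 2 * bm M b b := by
  unfold bm
  simp only [mul_sum]
  rw [← sum_sub_distrib, ← sum_sub_distrib, ← sum_add_distrib]
  refine sum_congr rfl fun c _ => ?_
  rw [← sum_sub_distrib, ← sum_sub_distrib, ← sum_add_distrib]
  exact sum_congr rfl fun d _ => by ring

/-- completing the square -/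
theorem gau (M : ι → ι → ℝ) (hMs : ∀ c d, M c d = M d c) (hM : ∀ b : ι → ℝ, 0 ≤ bm M b b)
    (Lc : ι → ℝ) (V : ℝ) :
    ∃ b : ι → ℝ, ∀ t : ℝ,
      ∫ σ : ι → ℝ, Real.exp (-(∑ c, σ c ^ 2 + (t ^ 2 * V + 2 * t * ∑ c, σ c * Lc c +
        bm M σ σ)) / 2) =
      Real.exp (-(t ^ 2 * (∑ c, b c ^ 2 + (V + 2 * ∑ c, b c * Lc c + bm M b b))) / 2) *
        ∫ σ : ι → ℝ, Real.exp (-(∑ c, σ c ^ 2 + bm M σ σ) / 2) := by
  classical
  let A : (ι → ℝ) →ₗ[ℝ] (ι → ℝ) :=
    { toFun := fun σ c => σ c + ∑ d, M c d * σ d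
      map_add' := by
        intro x y
        funext c
        simp only [Pi.add_apply, mul_add, sum_add_distrib]
        ring
      map_smul' := by
        intro m x
        funext c
        simp only [Pi.smul_apply, smul_eq_mul, RingHom.id_apply, mul_add, mul_sum]
        congr 1
        exact sum_congr rfl fun d _ => by ring }
  have hA : ∀ σ c, A σ c = σ c + ∑ d, M c d * σ d := fun _ _ => rfl
  have hinj : Function.Injective A := by
    rw [← LinearMap.ker_eq_bot, LinearMap.ker_eq_bot']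
    intro σ hσ
    have h1 : ∑ c, σ c * A σ c = 0 := by rw [hσ]; simp
    have h2 : ∑ c, σ c * A σ c = ∑ c, σ c ^ 2 + bm M σ σ := by
      unfold bm
      rw [← sum_add_distrib]
      refine sum_congr rfl fun c _ => ?_
      rw [hA, mul_add, mul_sum, pow_two]
      congr 1
      exact sum_congr rfl fun d _ => by ring
    have h3 : ∑ c, σ c ^ 2 = 0 := by
      have := hM σ
      have h4 : 0 ≤ ∑ c, σ c ^ 2 := sum_nonneg fun c _ => sq_nonneg _
      linarith
    funext c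
    have := (sum_eq_zero_iff_of_nonneg (fun c _ => sq_nonneg (σ c))).1 h3 c (mem_univ c)
    exact pow_eq_zero_iff two_ne_zero |>.1 this
  have hsurj : Function.Surjective A := LinearMap.injective_iff_surjective.1 hinj
  obtain ⟨b, hb⟩ := hsurj (fun c => -Lc c)
  have hb' : ∀ c, b c + ∑ d, M c d * b d = -Lc c := fun c => congrFun hb c
  have hcross : ∀ σ : ι → ℝ, ∑ c, σ c * b c + bm M σ b = -∑ c, σ c * Lc c := by
    intro σ
    unfold bm
    rw [← sum_add_distrib, ← sum_neg_distrib]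
    refine sum_congr rfl fun c _ => ?_
    rw [← mul_neg, ← hb' c, mul_add, mul_sum]
    congr 1
    exact sum_congr rfl fun d _ => by ring
  refine ⟨b, fun t => ?_⟩
  have hexp : ∀ σ : ι → ℝ, ∑ c, σ c ^ 2 + (t ^ 2 * V + 2 * t * ∑ c, σ c * Lc c + bm M σ σ) =
      (∑ c, (σ c - t * b c) ^ 2 + bm M (fun c => σ c - t * b c) (fun c => σ c - t * b c)) +
      t ^ 2 * (∑ c, b c ^ 2 + (V + 2 * ∑ c, b c * Lc c + bm M b b)) := by
    intro σ
    have h1 := hcross σ
    have h2 := hcross b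
    have h3 : ∑ c, b c * b c = ∑ c, b c ^ 2 := sum_congr rfl fun c _ => by ring
    rw [h3] at h2
    have h4 : ∑ c, (σ c - t * b c) ^ 2 = ∑ c, σ c ^ 2 - 2 * t * ∑ c, σ c * b c +
        t ^ 2 * ∑ c, b c ^ 2 := by
      simp only [mul_sum]
      rw [← sum_sub_distrib, ← sum_add_distrib]
      exact sum_congr rfl fun c _ => by ring
    rw [bm_sub_smul, bm_symm hMs b σ, h4]
    linear_combination (2 * t) * h1 - (2 * t ^ 2) * h2
  have e1 : ∀ σ : ι → ℝ, Real.exp (-(∑ c, σ c ^ 2 + (t ^ 2 * V + 2 * t * ∑ c, σ c * Lc c +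
        bm M σ σ)) / 2) = Real.exp (-(t ^ 2 * (∑ c, b c ^ 2 + (V + 2 * ∑ c, b c * Lc c +
        bm M b b))) / 2) * (fun σ : ι → ℝ => Real.exp (-(∑ c, σ c ^ 2 + bm M σ σ) / 2))
        (σ - t • b) := by
    intro σ
    rw [hexp, ← Real.exp_add]
    congr 1
    have e2 : (σ - t • b) = fun c => σ c - t * b c := by
      funext c; simp
    simp only [e2]
    ring
  simp only [e1]
  rw [integral_const_mul, integral_sub_right_eq_self
    (fun σ : ι → ℝ => Real.exp (-(∑ c, σ c ^ 2 + bm M σ σ) / 2)) (t • b)]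

/-- the Gaussian Fourier transform on `ι → ℝ` -/
theorem twist (y : ι → ℝ) :
    ∫ σ : ι → ℝ, ((Real.exp (-(∑ c, σ c ^ 2) / 2) : ℝ) : ℂ) *
        Complex.exp (Complex.I * ((∑ c, σ c * y c : ℝ) : ℂ)) =
      (((Real.sqrt (2 * Real.pi)) ^ Fintype.card ι * Real.exp (-(∑ c, y c ^ 2) / 2) : ℝ) : ℂ) := by
  have e1 : ∀ σ : ι → ℝ, ((Real.exp (-(∑ c, σ c ^ 2) / 2) : ℝ) : ℂ) *
        Complex.exp (Complex.I * ((∑ c, σ c * y c : ℝ) : ℂ)) =
      ∏ c, (fun (c : ι) (x : ℝ) => Complex.exp (-(1 / 2 : ℂ) * (x : ℂ) ^ 2 +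
        Complex.I * y c * x)) c (σ c) := by
    intro σ
    simp only [Complex.ofReal_exp]
    rw [← Complex.exp_add, ← Complex.exp_sum]
    congr 1
    push_cast
    rw [mul_sum, neg_div, sum_div, ← sum_neg_distrib, ← sum_add_distrib]
    exact sum_congr rfl fun c _ => by ring
  simp only [e1]
  rw [integral_fintype_prod_volume_eq_prod (fun (c : ι) (x : ℝ) =>
    Complex.exp (-(1 / 2 : ℂ) * (x : ℂ) ^ 2 + Complex.I * y c * x))]
  have e2 : ∀ c, ∫ x : ℝ, Complex.exp (-(1 / 2 : ℂ) * (x : ℂ) ^ 2 + Complex.I * y c * x) =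
      ((Real.sqrt (2 * Real.pi) * Real.exp (-(y c ^ 2) / 2) : ℝ) : ℂ) := by
    intro c
    have h := fourierIntegral_gaussian (b := (1 / 2 : ℂ)) (by norm_num) (y c : ℂ)
    have e3 : ∀ x : ℝ, Complex.exp (-(1 / 2 : ℂ) * (x : ℂ) ^ 2 + Complex.I * y c * x) =
        Complex.exp (Complex.I * y c * x) * Complex.exp (-(1 / 2 : ℂ) * (x : ℂ) ^ 2) := by
      intro x
      rw [add_comm, Complex.exp_add]
    simp only [e3]
    rw [h]
    have e4 : (Real.pi / (1 / 2 : ℂ)) ^ (1 / 2 : ℂ) = ((Real.sqrt (2 * Real.pi) : ℝ) : ℂ) := by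
      rw [Real.sqrt_eq_rpow, Complex.ofReal_cpow (by positivity)]
      congr 1
      · push_cast; ring
      · push_cast; ring
    rw [e4, Complex.ofReal_mul, Complex.ofReal_exp]
    congr 2
    push_cast
    ring
  simp only [e2]
  rw [← Complex.ofReal_prod, prod_mul_distrib, prod_const, card_univ, ← Real.exp_sum]
  congr 3
  rw [← sum_neg_distrib, sum_div]

end gau

end Vale.Agent.P159.TM.H968
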