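import Vale.Agent.P159.TM.H968.Cells
import Vale.Agent.P159.TM.H963.Mac

/-!
Row GAU of part (I): the lower bound for the variance of a linear functional of constant mean, under
the mass on the cell averages.
-/

open Finset Filter Topology

namespace Vale.Agent.P159.TM.H968

open Vale.Agent.P159 Vale.Agent.P159.R2.H254 Vale.Agent.P159.H353 Vale.Agent.P159.H950

lemma P2_of {b : ℝ} (hb : 0 < b) (hY : 0 < helicity b) {ν : ℕ → ℕ} (hν : Tendsto ν atTop atTop) :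
    P2 b ν := by
  rintro m hm0 v h0 ⟨B, hB⟩ ⟨φ, hφ⟩
  have h := H963.blk_mean hν hb hY hm0 h0 hB hφ
  refine h.congr fun i => ?_
  congr 1
  funext h
  have e : hm h = H963.av h := by
    unfold hm pr H963.av
    simp
  rw [e]

lemma cell_cs {a k : ℕ} (ha : a ≤ k) (β : ↥(range (2 ^ a) ×ˢ range (2 ^ a)) → ℝ) :
    (∑ x, (∑ c, β c * cellf a c.1.1 c.1.2 k x) ^ 2) / (((2 ^ k - 1 : ℕ) : ℝ) + 1) ^ 2 ≤
      4 ^ a * ∑ c, β c ^ 2 := by
  have h1 : ∀ x : Fa (2 ^ k - 1), (∑ c, β c * cellf a c.1.1 c.1.2 k x) ^ 2 ≤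
      (∑ c, β c ^ 2 * cellf a c.1.1 c.1.2 k x) * 4 ^ a := by
    intro x
    have h2 : ∑ c : ↥(range (2 ^ a) ×ˢ range (2 ^ a)), cellf a c.1.1 c.1.2 k x = 4 ^ a := by
      rw [sum_coe_sort (range (2 ^ a) ×ˢ range (2 ^ a)) fun c => cellf a c.1 c.2 k x, cellf_tot ha]
    rw [← h2]
    exact sum_sq_le_sum_mul_sum_of_sq_le_mul _
      (fun c _ => mul_nonneg (sq_nonneg _) (cellf_nonneg _ _ _ _ _))
      (fun c _ => cellf_nonneg _ _ _ _ _) (fun c _ => le_of_eq (by ring))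
  rw [four_pow, div_le_iff₀ (by positivity)]
  refine (sum_le_sum fun x _ => h1 x).trans ?_
  rw [← sum_mul, sum_comm]
  have h3 : ∀ c : ↥(range (2 ^ a) ×ˢ range (2 ^ a)),
      ∑ x, β c ^ 2 * cellf a c.1.1 c.1.2 k x = β c ^ 2 * 4 ^ k := by
    intro c
    have hc := mem_product.1 c.2
    rw [← mul_sum, cellf_sum ha (mem_range.1 hc.1) (mem_range.1 hc.2)]
  rw [sum_congr rfl fun c _ => h3 c, ← sum_mul]
  exact le_of_eq (by ring)

/-- input (DC) -/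
def DCc : Prop := ∀ s i j : ℕ, i < 2 ^ s → j < 2 ^ s → ∀ p q : ℕ,
  Tendsto (fun k => dct (2 ^ k - 1) (cellf s i j k) (p, q)) atTop
    (𝓝 (SpecI.cavg s i p * SpecI.cavg s j q))

theorem inst (hD : DCc) {b : ℝ} (hb : 0 < b) (hY : 0 < helicity b) {κ : ℝ} (hκ : 0 < κ) (a : ℕ)
    {uf : ∀ k, Fa (2 ^ k - 1) → ℝ} {ū B : ℝ} {φ : ℕ × ℕ → ℝ} (k₁ : ℕ)
    (hu1 : ∀ k, k₁ ≤ k → ∑ x, uf k x = ū * 4 ^ k) (huB : ∀ k, k₁ ≤ k → ∑ x, uf k x ^ 2 ≤ B * 4 ^ k)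
    (huφ : ∀ p, Tendsto (fun k => dct (2 ^ k - 1) (uf k) p) atTop (𝓝 (φ p)))
    {X : ∀ k, (SpecI.V (2 ^ k) → ℤ) → ℝ}
    (hX : ∀ k, k₁ ≤ k → ∀ h, X k h = pr (uf k) fun y => h (sit y))
    (K : Finset (ℕ × ℕ)) {δ : ℝ} (hδ : 0 < δ) :
    ∃ k₀ : ℕ, ∀ k, k₀ ≤ k → ∑ p ∈ K, φ p ^ 2 /
        (nr p * (κ ^ 2 + Real.pi ^ 2 * ((p.1 : ℝ) ^ 2 + (p.2 : ℝ) ^ 2) / helicity b)) - δ ≤
      SpecI.exA b κ k a fun h => X k h ^ 2 := by
  set k₂ : ℕ := max k₁ a with hk₂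
  set ν : ℕ → ℕ := fun i => 2 ^ (i + k₂) - 1 with hνd
  have hν : Tendsto ν atTop atTop := by
    refine tendsto_atTop_mono (fun i => ?_) tendsto_id
    have : i + k₂ < 2 ^ (i + k₂) := Nat.lt_two_pow_self
    simp only [hνd, id]
    omega
  have h4 : ∀ i, ((ν i : ℝ) + 1) ^ 2 = 4 ^ (i + k₂) := fun i => four_pow (i + k₂)
  have hk1 : ∀ i, k₁ ≤ i + k₂ := fun i => (le_max_left _ _).trans (Nat.le_add_left _ _)
  have hka : ∀ i, a ≤ i + k₂ := fun i => (le_max_right _ _).trans (Nat.le_add_left _ _)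
  have hshift : Tendsto (fun i => i + k₂) atTop atTop := tendsto_add_atTop_nat k₂
  have hu1' : ∀ i, ∑ x, uf (i + k₂) x = ū * ((ν i : ℝ) + 1) ^ 2 := fun i => by
    rw [h4]; exact hu1 _ (hk1 i)
  have hU1' : ∀ (c : ↥(range (2 ^ a) ×ˢ range (2 ^ a))) i,
      ∑ x, cellf a c.1.1 c.1.2 (i + k₂) x = 1 * ((ν i : ℝ) + 1) ^ 2 := fun c i => by
    have hc := mem_product.1 c.2
    rw [h4, one_mul]
    exact cellf_sum (hka i) (mem_range.1 hc.1) (mem_range.1 hc.2)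
  have hmain := var_lower (ι := ↥(range (2 ^ a) ×ˢ range (2 ^ a))) hν hb hY
    (u := fun i => uf (i + k₂)) (U := fun c i => cellf a c.1.1 c.1.2 (i + k₂))
    (B := B) (d := 4 ^ a) (ū := ū) (φ := φ)
    (Φ := fun c p => SpecI.cavg a c.1.1 p.1 * SpecI.cavg a c.1.2 p.2)
    hu1' hU1'
    (fun i => by
      rw [h4, div_le_iff₀ (by positivity)]
      exact huB _ (hk1 i))
    (fun i β => cell_cs (hka i) β)
    (fun p => (huφ p).comp hshift)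
    (fun c p => by
      have hc := mem_product.1 c.2
      exact (hD a c.1.1 c.1.2 (mem_range.1 hc.1) (mem_range.1 hc.2) p.1 p.2).comp hshift)
    (P2_of hb hY hν) hκ (κ' := κ / 2 ^ a)
    (by
      rw [div_pow, ← pow_mul, mul_comm a 2, pow_mul]
      norm_num)
    (M := fun i => SpecI.exA b κ (i + k₂) a fun h => X (i + k₂) h ^ 2)
    (fun t ht => Eventually.of_forall fun i => by
      have hn : 2 ^ (i + k₂) = (2 ^ (i + k₂) - 1) + 1 :=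
        (Nat.sub_add_cancel Nat.one_le_two_pow).symm
      refine bridge (ι := ↥(range (2 ^ a) ×ˢ range (2 ^ a))) hn hb hκ
        (u := fun x => uf (i + k₂) x - ū) (U := fun c x => cellf a c.1.1 c.1.2 (i + k₂) x - 1)
        (sum_sub_mean (hu1' i)) (massA_eq (hka i) hn) (fun p => ?_) ht
      rw [hX _ (hk1 i)]
      have e2 : (fun y => hz hn p (sit y)) = fun y => p.1.1 y + p.2 := by
        funext y; exact hz_sit hn p y
      rw [e2, pr_shift (hu1' i)])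
    K hδ
  obtain ⟨i₀, hi₀⟩ := eventually_atTop.1 hmain
  refine ⟨i₀ + k₂, fun k hk => ?_⟩
  obtain ⟨i, rfl⟩ : ∃ i, k = i + k₂ := ⟨k - k₂, by omega⟩
  exact hi₀ i (by omega)

end Vale.Agent.P159.TM.H968
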