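import Vale.Agent.P159.TM.H968.Quad

/-!
Row GAU of part (I): lower bound for the limit variance under the mass on the cell averages.
-/

open Finset Filter Topology

namespace Vale.Agent.P159.TM.H968

open Vale.Agent.P159 Vale.Agent.P159.R2.H254

lemma cs_two {φ A α β : ℝ} (hα : 0 < α) (hβ : 0 < β) :
    φ ^ 2 / (β + α) ≤ (φ + A) ^ 2 / α + A ^ 2 / β := by
  rw [div_add_div _ _ hα.ne' hβ.ne', div_le_div_iff₀ (by positivity) (by positivity)]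
  nlinarith [sq_nonneg ((φ + A) * β + A * α), mul_pos hα hβ]

theorem leg {ι : Type*} [Fintype ι] {φ : ℕ × ℕ → ℝ} {Φ : ι → ℕ × ℕ → ℝ}
    (h1 : Summable (qk φ)) (h2 : ∀ c, Summable (qk (Φ c))) {Y κ κ' d : ℝ} (hY : 0 < Y)
    (hκ : 0 < κ) (hκ' : κ' ^ 2 * d = κ ^ 2)
    (hbes : ∀ (K : Finset (ℕ × ℕ)) (b : ι → ℝ),
      ∑ k ∈ K, (nr k)⁻¹ * (∑ c, b c * Φ c k) ^ 2 ≤ d * ∑ c, b c ^ 2)
    (K : Finset (ℕ × ℕ)) (hK : (0, 0) ∉ K) (b : ι → ℝ) :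
    ∑ k ∈ K, φ k ^ 2 / (nr k * (κ ^ 2 + Real.pi ^ 2 * ((k.1 : ℝ) ^ 2 + (k.2 : ℝ) ^ 2) / Y)) ≤
      ∑ c, b c ^ 2 + Y * ∑' k, qk (fun k => 1 * φ k + ∑ c, (κ' * b c) * Φ c k) k := by
  set ψ : ℕ × ℕ → ℝ := fun k => 1 * φ k + ∑ c, (κ' * b c) * Φ c k with hψ
  have hs : Summable (qk ψ) := (tsum_qk_comb h1 h2 1 fun c => κ' * b c).summable
  have e1 : Y * ∑ k ∈ K, qk ψ k ≤ Y * ∑' k, qk ψ k :=
    mul_le_mul_of_nonneg_left (hs.sum_le_tsum K fun k _ => qk_nonneg ψ k) hY.le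
  have e2 : (κ' ^ 2 / κ ^ 2) * ∑ k ∈ K, (nr k)⁻¹ * (∑ c, b c * Φ c k) ^ 2 ≤ ∑ c, b c ^ 2 := by
    refine (mul_le_mul_of_nonneg_left (hbes K b) (by positivity)).trans (le_of_eq ?_)
    have : κ' ^ 2 / κ ^ 2 * (d * ∑ c, b c ^ 2) = (κ' ^ 2 * d) / κ ^ 2 * ∑ c, b c ^ 2 := by ring
    rw [this, hκ', div_self (by positivity), one_mul]
  refine le_trans ?_ (add_le_add e2 e1)
  rw [mul_sum, mul_sum, ← sum_add_distrib]
  refine sum_le_sum fun k hk => ?_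
  have hk0 : k ≠ (0, 0) := fun h => hK (h ▸ hk)
  have hn := nr_pos k
  set α : ℝ := Real.pi ^ 2 * ((k.1 : ℝ) ^ 2 + (k.2 : ℝ) ^ 2) / Y with hα
  have hk2 : 0 < (k.1 : ℝ) ^ 2 + (k.2 : ℝ) ^ 2 := by
    have h2 : k.1 ≠ 0 ∨ k.2 ≠ 0 := by
      by_contra hcon
      push Not at hcon
      exact hk0 (Prod.ext hcon.1 hcon.2)
    rcases h2 with h | h
    · have : (k.1 : ℝ) ≠ 0 := by exact_mod_cast h
      positivity
    · have : (k.2 : ℝ) ≠ 0 := by exact_mod_cast h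
      positivity
  have hα0 : 0 < α := by have := Real.pi_pos; positivity
  have hq : Y * qk ψ k = ψ k ^ 2 / (nr k * α) := by
    unfold qk
    rw [if_neg hk0, hα]
    field_simp
  rw [hq]
  have hA : ψ k = φ k + κ' * ∑ c, b c * Φ c k := by
    simp only [hψ, one_mul, mul_sum]
    congr 1
    exact sum_congr rfl fun c _ => by ring
  rw [hA]
  set A : ℝ := ∑ c, b c * Φ c k
  have h := cs_two (φ := φ k) (A := κ' * A) hα0 (show 0 < κ ^ 2 by positivity)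
  have e3 : φ k ^ 2 / (nr k * (κ ^ 2 + α)) = (nr k)⁻¹ * (φ k ^ 2 / (κ ^ 2 + α)) := by
    field_simp
  have e4 : κ' ^ 2 / κ ^ 2 * ((nr k)⁻¹ * A ^ 2) + (φ k + κ' * A) ^ 2 / (nr k * α) =
      (nr k)⁻¹ * ((φ k + κ' * A) ^ 2 / α + (κ' * A) ^ 2 / κ ^ 2) := by
    field_simp
    ring
  rw [e3, e4]
  exact mul_le_mul_of_nonneg_left h (by positivity)

end Vale.Agent.P159.TM.H968
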