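import Mathlib

/-!
Row GAU of part (I): the sum over the global integer (Poisson summation).
-/

open Finset

namespace Vale.Agent.P159.TM.H968

/-- the Gaussian coefficients after Poisson summation -/
noncomputable def pt (κ s : ℝ) (m : ℤ) : ℝ := Real.exp (-(s - 2 * Real.pi * m) ^ 2 / (2 * κ ^ 2))

lemma pt_pos (κ s : ℝ) (m : ℤ) : 0 < pt κ s m := Real.exp_pos _

lemma gauss_summable {c : ℝ} (hc : 0 < c) (d : ℝ) :
    Summable fun n : ℤ => Real.exp (-(c * (n : ℝ) ^ 2) + d * n) := by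
  have hpi : (Real.pi : ℂ) ≠ 0 := by exact_mod_cast Real.pi_ne_zero
  have h := (summable_jacobiTheta₂_term_iff (-(Complex.I * d / (2 * Real.pi)))
    (((c / Real.pi : ℝ) : ℂ) * Complex.I)).2 (by
      rw [Complex.mul_I_im, Complex.ofReal_re]
      exact div_pos hc Real.pi_pos)
  have h2 := h.norm
  refine h2.congr fun n => ?_
  unfold jacobiTheta₂_term
  have e1 : 2 * (Real.pi : ℂ) * Complex.I * n * -(Complex.I * d / (2 * Real.pi)) +
      Real.pi * Complex.I * (n : ℂ) ^ 2 * (((c / Real.pi : ℝ) : ℂ) * Complex.I) =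
      ((-(c * (n : ℝ) ^ 2) + d * n : ℝ) : ℂ) := by
    push_cast
    have hI : Complex.I ^ 2 = -1 := Complex.I_sq
    field_simp
    ring_nf
    rw [hI]
    ring
  rw [e1, Complex.norm_exp_ofReal]

lemma pt_summable {κ : ℝ} (hκ : 0 < κ) (s : ℝ) : Summable (pt κ s) := by
  have h := (gauss_summable (c := 2 * Real.pi ^ 2 / κ ^ 2) (by
    have := Real.pi_pos
    positivity) (2 * Real.pi * s / κ ^ 2)).mul_left (Real.exp (-s ^ 2 / (2 * κ ^ 2)))
  refine h.congr fun m => ?_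
  rw [← Real.exp_add]
  unfold pt
  congr 1
  field_simp
  ring

lemma shift_summable {c : ℝ} (hc : 0 < c) (y : ℝ) :
    Summable fun n : ℤ => Real.exp (-(c * (y + n) ^ 2)) := by
  have h := (gauss_summable hc (-(2 * c * y))).mul_left (Real.exp (-(c * y ^ 2)))
  refine h.congr fun m => ?_
  rw [← Real.exp_add]
  congr 1
  ring

/-- the term of the sum over the global integer -/
noncomputable def tt (κ s y : ℝ) (n : ℤ) : ℂ :=
  Complex.exp (((-(κ ^ 2 / 2 * (y + n) ^ 2) : ℝ) : ℂ) + Complex.I * ((s * (y + n) : ℝ) : ℂ))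

lemma norm_tt (κ s y : ℝ) (n : ℤ) : ‖tt κ s y n‖ = Real.exp (-(κ ^ 2 / 2 * (y + n) ^ 2)) := by
  unfold tt
  rw [Complex.exp_add, norm_mul, Complex.norm_exp_ofReal, mul_comm Complex.I,
    Complex.norm_exp_ofReal_mul_I, mul_one]

lemma tt_summable {κ : ℝ} (hκ : 0 < κ) (s y : ℝ) : Summable (tt κ s y) := by
  refine Summable.of_norm ?_
  simp only [norm_tt]
  exact shift_summable (by positivity) y

/-- Poisson summation -/
theorem poisson {κ : ℝ} (hκ : 0 < κ) (s y : ℝ) :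
    ∑' n : ℤ, tt κ s y n = ((Real.sqrt (2 * Real.pi) / κ : ℝ) : ℂ) *
      ∑' m : ℤ, (pt κ s m : ℂ) * Complex.exp (Complex.I * ((2 * Real.pi * m * y : ℝ) : ℂ)) := by
  have hpi : (Real.pi : ℂ) ≠ 0 := by exact_mod_cast Real.pi_ne_zero
  have hk : (κ : ℂ) ≠ 0 := by exact_mod_cast hκ.ne'
  have hI : Complex.I ^ 2 = -1 := Complex.I_sq
  set a : ℝ := κ ^ 2 / (2 * Real.pi) with ha
  have ha0 : 0 < a := by have := Real.pi_pos; positivity
  set β : ℂ := (-(κ : ℂ) ^ 2 * y + Complex.I * s) / (2 * Real.pi) with hβ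
  have h := Complex.tsum_exp_neg_quadratic (a := (a : ℂ)) (by simpa using ha0) β
  have e1 : ∀ n : ℤ, tt κ s y n = Complex.exp (-(κ : ℂ) ^ 2 * y ^ 2 / 2 + Complex.I * s * y) *
      Complex.exp (-Real.pi * (a : ℂ) * (n : ℂ) ^ 2 + 2 * Real.pi * β * n) := by
    intro n
    unfold tt
    rw [← Complex.exp_add]
    congr 1
    simp only [ha, hβ]
    push_cast
    field_simp
    ring
  have e2 : ∀ m : ℤ, Complex.exp (-(κ : ℂ) ^ 2 * y ^ 2 / 2 + Complex.I * s * y) *
      Complex.exp (-Real.pi / (a : ℂ) * (m + Complex.I * β) ^ 2) =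
      (pt κ s m : ℂ) * Complex.exp (Complex.I * ((2 * Real.pi * m * y : ℝ) : ℂ)) := by
    intro m
    unfold pt
    rw [← Complex.exp_add, Complex.ofReal_exp, ← Complex.exp_add]
    congr 1
    simp only [ha, hβ]
    push_cast
    have e3 : ((m : ℂ) + Complex.I * ((-(κ : ℂ) ^ 2 * y + Complex.I * s) / (2 * Real.pi))) =
        (2 * Real.pi * m - s - Complex.I * (κ : ℂ) ^ 2 * y) / (2 * Real.pi) := by
      field_simp
      ring_nf
      rw [hI]
      ring
    rw [e3]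
    field_simp
    ring_nf
    rw [hI]
    ring
  rw [tsum_congr e1, tsum_mul_left, h, mul_left_comm, ← tsum_mul_left, tsum_congr e2]
  congr 1
  have e4 : (a : ℂ) ^ (1 / 2 : ℂ) = ((κ / Real.sqrt (2 * Real.pi) : ℝ) : ℂ) := by
    have : (1 / 2 : ℂ) = ((1 / 2 : ℝ) : ℂ) := by push_cast; ring
    rw [this, ← Complex.ofReal_cpow ha0.le, ← Real.sqrt_eq_rpow, ha, Real.sqrt_div (by positivity),
      Real.sqrt_sq hκ.le]
  rw [e4, one_div, ← Complex.ofReal_inv, inv_div]

end Vale.Agent.P159.TM.H968
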