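import Vale.Agent.P159.TM.H968.Leg
import Vale.Agent.P159.TM.H968.Theta

/-!
Row GAU of part (I): the limit of the characteristic function under the mass on the cell averages.
-/

open Finset Filter Topology MeasureTheory

namespace Vale.Agent.P159.TM.H968

open Vale.Agent.P159 Vale.Agent.P159.R2.H254 Vale.Agent.P159.H353 Vale.Agent.P159.H950

/-- spatial mean of the heights -/
noncomputable def hm {N : ℕ} (h : Fa N → ℤ) : ℝ := pr (fun _ : Fa N => (1 : ℝ)) h

lemma norm_eI (x : ℝ) : ‖Complex.exp (Complex.I * (x : ℂ))‖ = 1 := by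
  rw [mul_comm, Complex.norm_exp_ofReal_mul_I]

lemma hMean_norm_le_one {N : ℕ} {b : ℝ} (hb : 0 < b) (X : (Fa N → ℤ) → ℝ) :
    ‖hMean N b (fun h => Complex.exp (Complex.I * ((X h : ℝ) : ℂ)))‖ ≤ 1 := by
  have h := norm_hMean_le hb (F := fun h => Complex.exp (Complex.I * ((X h : ℝ) : ℂ)))
    (G := fun _ => 1) (fun h => (norm_eI _).le) (by simpa using summable_hWt N hb)
  rwa [hE_one hb] at h

section swap

variable {ι : Type*} [Fintype ι]

/-- the Gaussian weight -/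
noncomputable def gw (σ : ι → ℝ) : ℝ := Real.exp (-(∑ c, σ c ^ 2) / 2)

lemma gw_cont : Continuous (gw : (ι → ℝ) → ℝ) := by
  unfold gw; fun_prop

lemma gw_pos (σ : ι → ℝ) : 0 < gw σ := Real.exp_pos _

lemma gw_int : Integrable (gw : (ι → ℝ) → ℝ) := by
  have e : (gw : (ι → ℝ) → ℝ) = fun σ => ∏ c, (fun (_ : ι) (x : ℝ) =>
      Real.exp (-(1 / 2) * x ^ 2)) c (σ c) := by
    funext σ
    unfold gw
    rw [← Real.exp_sum]
    congr 1
    rw [neg_div, sum_div, ← sum_neg_distrib]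
    exact sum_congr rfl fun c _ => by ring
  rw [e]
  exact Integrable.fintype_prod fun c => integrable_exp_neg_mul_sq (by norm_num)

lemma gw_integral : ∫ σ : ι → ℝ, gw σ = Real.sqrt (2 * Real.pi) ^ Fintype.card ι := by
  have h := twist (ι := ι) (fun _ => 0)
  simp only [mul_zero, sum_const_zero, Complex.ofReal_zero, Complex.exp_zero, mul_one] at h
  have h2 : ((∫ σ : ι → ℝ, gw σ : ℝ) : ℂ) =
      ((Real.sqrt (2 * Real.pi) ^ Fintype.card ι : ℝ) : ℂ) := by
    rw [← integral_complex_ofReal]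
    unfold gw
    rw [h]
    simp
  exact_mod_cast h2

variable {N : ℕ} {b : ℝ} (hb : 0 < b) (X : (Fa N → ℤ) → ℝ) (y : ι → (Fa N → ℤ) → ℝ)

include hb in
lemma chi_cont : Continuous fun σ : ι → ℝ => hMean N b fun h =>
    Complex.exp (Complex.I * ((X h + ∑ c, σ c * y c h : ℝ) : ℂ)) := by
  unfold hMean
  refine Continuous.div_const ?_ _
  refine continuous_tsum (u := fun h : Hgt N => hWt N b h.1) (fun h => ?_) (summable_hWt N hb)
    fun h σ => ?_
  · fun_prop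
  · rw [norm_mul, norm_eI, mul_one, Complex.norm_real, Real.norm_eq_abs,
      abs_of_pos (hWt_pos hb h.1)]

include hb in
lemma swap_int :
    hMean N b (fun h => Complex.exp (Complex.I * ((X h : ℝ) : ℂ)) *
      ∫ σ : ι → ℝ, ((gw σ : ℝ) : ℂ) * Complex.exp (Complex.I * ((∑ c, σ c * y c h : ℝ) : ℂ))) =
    ∫ σ : ι → ℝ, ((gw σ : ℝ) : ℂ) * hMean N b fun h =>
      Complex.exp (Complex.I * ((X h + ∑ c, σ c * y c h : ℝ) : ℂ)) := by
  have hint : ∀ h : Hgt N, Integrable fun σ : ι → ℝ => (hWt N b h.1 : ℂ) *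
      (((gw σ : ℝ) : ℂ) * Complex.exp (Complex.I * ((X h.1 + ∑ c, σ c * y c h.1 : ℝ) : ℂ))) := by
    intro h
    refine Integrable.const_mul ?_ _
    refine Integrable.mono' gw_int ?_ ?_
    · refine Continuous.aestronglyMeasurable ?_
      have := gw_cont (ι := ι)
      fun_prop
    · refine Eventually.of_forall fun σ => ?_
      rw [norm_mul, norm_eI, mul_one, Complex.norm_real, Real.norm_eq_abs, abs_of_pos (gw_pos σ)]
  have hs := hasSum_integral_of_summable_integral_norm (μ := (volume : Measure (ι → ℝ)))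
    (F := fun (h : Hgt N) (σ : ι → ℝ) => (hWt N b h.1 : ℂ) *
      (((gw σ : ℝ) : ℂ) * Complex.exp (Complex.I * ((X h.1 + ∑ c, σ c * y c h.1 : ℝ) : ℂ))))
    hint (by
      have e : ∀ h : Hgt N, ∫ σ : ι → ℝ, ‖(hWt N b h.1 : ℂ) *
          (((gw σ : ℝ) : ℂ) * Complex.exp (Complex.I *
            ((X h.1 + ∑ c, σ c * y c h.1 : ℝ) : ℂ)))‖ = hWt N b h.1 * ∫ σ : ι → ℝ, gw σ := by
        intro h
        rw [← integral_const_mul]
        refine integral_congr_ae (Eventually.of_forall fun σ => ?_)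
        simp only
        rw [norm_mul, norm_mul, norm_eI, mul_one, Complex.norm_real, Complex.norm_real,
          Real.norm_eq_abs, Real.norm_eq_abs, abs_of_pos (gw_pos σ), abs_of_pos (hWt_pos hb h.1)]
      simp only [e]
      exact (summable_hWt N hb).mul_right _)
  unfold hMean
  have e1 : ∀ h : Hgt N, (hWt N b h.1 : ℂ) * (Complex.exp (Complex.I * ((X h.1 : ℝ) : ℂ)) *
      ∫ σ : ι → ℝ, ((gw σ : ℝ) : ℂ) * Complex.exp (Complex.I * ((∑ c, σ c * y c h.1 : ℝ) : ℂ))) =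
      ∫ σ : ι → ℝ, (hWt N b h.1 : ℂ) *
      (((gw σ : ℝ) : ℂ) * Complex.exp (Complex.I * ((X h.1 + ∑ c, σ c * y c h.1 : ℝ) : ℂ))) := by
    intro h
    rw [← mul_assoc, ← integral_const_mul]
    refine integral_congr_ae (Eventually.of_forall fun σ => ?_)
    simp only
    have : Complex.exp (Complex.I * ((X h.1 + ∑ c, σ c * y c h.1 : ℝ) : ℂ)) =
        Complex.exp (Complex.I * ((X h.1 : ℝ) : ℂ)) *
        Complex.exp (Complex.I * ((∑ c, σ c * y c h.1 : ℝ) : ℂ)) := by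
      rw [← Complex.exp_add]
      congr 1
      push_cast; ring
    rw [this]
    ring
  rw [tsum_congr e1, hs.tsum_eq]
  have e2 : ∀ σ : ι → ℝ, ((gw σ : ℝ) : ℂ) * ((∑' h : Hgt N, (hWt N b h.1 : ℂ) *
      Complex.exp (Complex.I * ((X h.1 + ∑ c, σ c * y c h.1 : ℝ) : ℂ))) /
        ((∑' h : Hgt N, hWt N b h.1 : ℝ) : ℂ)) =
      (∑' h : Hgt N, (hWt N b h.1 : ℂ) * (((gw σ : ℝ) : ℂ) *
      Complex.exp (Complex.I * ((X h.1 + ∑ c, σ c * y c h.1 : ℝ) : ℂ)))) /
        ((∑' h : Hgt N, hWt N b h.1 : ℝ) : ℂ) := by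
    intro σ
    rw [mul_div_assoc', ← tsum_mul_left]
    congr 1
    exact tsum_congr fun h => by ring
  simp only [e2]
  rw [integral_div]

include hb in
lemma swap_tsum {p : ℤ → ℝ} (hp : Summable p) (hp0 : ∀ m, 0 ≤ p m) (z : (Fa N → ℤ) → ℝ)
    {G : (Fa N → ℤ) → ℂ} {C : ℝ} (hG : ∀ h, ‖G h‖ ≤ C) :
    hMean N b (fun h => (∑' m : ℤ, (p m : ℂ) *
      Complex.exp (Complex.I * ((2 * Real.pi * m * z h : ℝ) : ℂ))) * G h) =
    ∑' m : ℤ, (p m : ℂ) * hMean N b fun h =>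
      Complex.exp (Complex.I * ((2 * Real.pi * m * z h : ℝ) : ℂ)) * G h := by
  have hC : 0 ≤ C := (norm_nonneg _).trans (hG 0)
  have hs : Summable (Function.uncurry fun (h : Hgt N) (m : ℤ) => (hWt N b h.1 : ℂ) * ((p m : ℂ) *
      (Complex.exp (Complex.I * ((2 * Real.pi * m * z h.1 : ℝ) : ℂ)) * G h.1))) := by
    have h1 : Summable fun q : Hgt N × ℤ => hWt N b q.1.1 * (C * p q.2) :=
      (summable_hWt N hb).mul_of_nonneg (hp.mul_left C) (fun h => (hWt_pos hb h.1).le)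
        fun m => mul_nonneg hC (hp0 m)
    refine Summable.of_norm_bounded h1 fun q => ?_
    simp only [Function.uncurry]
    rw [norm_mul, norm_mul, norm_mul, norm_eI, one_mul, Complex.norm_real, Complex.norm_real,
      Real.norm_eq_abs, Real.norm_eq_abs, abs_of_pos (hWt_pos hb q.1.1), abs_of_nonneg (hp0 _)]
    refine mul_le_mul_of_nonneg_left ?_ (hWt_pos hb q.1.1).le
    rw [mul_comm C]
    exact mul_le_mul_of_nonneg_left (hG _) (hp0 _)
  unfold hMean
  have e1 : ∀ h : Hgt N, (hWt N b h.1 : ℂ) * ((∑' m : ℤ, (p m : ℂ) *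
      Complex.exp (Complex.I * ((2 * Real.pi * m * z h.1 : ℝ) : ℂ))) * G h.1) =
      ∑' m : ℤ, (hWt N b h.1 : ℂ) * ((p m : ℂ) *
      (Complex.exp (Complex.I * ((2 * Real.pi * m * z h.1 : ℝ) : ℂ)) * G h.1)) := by
    intro h
    rw [← tsum_mul_right, ← tsum_mul_left]
    exact tsum_congr fun m => by ring
  rw [tsum_congr e1, ← hs.tsum_comm]
  rw [← tsum_div_const]
  refine tsum_congr fun m => ?_
  rw [mul_div_assoc', ← tsum_mul_left]
  congr 1
  exact tsum_congr fun h => by ring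

end swap

/-- input (P2) [963]: the activity of the integer charges of the spatial mean vanishes -/
def P2 (b : ℝ) (ν : ℕ → ℕ) : Prop :=
  ∀ m : ℤ, m ≠ 0 → ∀ v : ∀ i, Fa (ν i) → ℝ, (∀ i, ∑ x, v i x = 0) →
    (∃ B : ℝ, ∀ i, (∑ x, v i x ^ 2) / ((ν i : ℝ) + 1) ^ 2 ≤ B) →
    (∃ φ : ℕ × ℕ → ℝ, ∀ k, Tendsto (fun i => dct (ν i) (v i) k) atTop (𝓝 (φ k))) →
    Tendsto (fun i => hMean (ν i) b fun h => Complex.exp (Complex.I *
      ((2 * Real.pi * m * hm h + pr (v i) h : ℝ) : ℂ))) atTop (𝓝 0)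

lemma pr_comb {ι : Type*} [Fintype ι] {N : ℕ} (u : Fa N → ℝ) (U : ι → Fa N → ℝ) (t : ℝ)
    (a : ι → ℝ) (h : Fa N → ℤ) :
    pr (fun x => t * u x + ∑ c, a c * U c x) h = t * pr u h + ∑ c, a c * pr (U c) h := by
  unfold pr
  rw [mul_div_assoc', mul_sum, sum_congr rfl fun c _ => mul_div_assoc' (a c) _ _, ← sum_div,
    ← add_div]
  congr 1
  simp only [add_mul, sum_add_distrib, sum_mul, mul_sum]
  congr 1
  · exact sum_congr rfl fun x _ => by ring
  · rw [sum_comm]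
    exact sum_congr rfl fun c _ => sum_congr rfl fun x _ => by ring

lemma dct_comb' {ι : Type*} [Fintype ι] {N : ℕ} (u : Fa N → ℝ) (U : ι → Fa N → ℝ) (t : ℝ)
    (a : ι → ℝ) (k : ℕ × ℕ) :
    dct N (fun x => t * u x + ∑ c, a c * U c x) k =
      t * dct N u k + ∑ c, a c * dct N (U c) k := by
  unfold dct
  rw [mul_div_assoc', mul_sum, sum_congr rfl fun c _ => mul_div_assoc' (a c) _ _, ← sum_div,
    ← add_div]
  congr 1
  simp only [add_mul, sum_add_distrib, sum_mul, mul_sum]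
  congr 1
  · exact sum_congr rfl fun x _ => by ring
  · rw [sum_comm]
    exact sum_congr rfl fun c _ => sum_congr rfl fun x _ => by ring

lemma sq_comb_le {ι : Type*} [Fintype ι] {N : ℕ} (u : Fa N → ℝ) (U : ι → Fa N → ℝ) (t : ℝ)
    (a : ι → ℝ) {B : ℝ} (h1 : (∑ x, u x ^ 2) / ((N : ℝ) + 1) ^ 2 ≤ B)
    (h2 : ∀ c, (∑ x, U c x ^ 2) / ((N : ℝ) + 1) ^ 2 ≤ B) :
    (∑ x, (t * u x + ∑ c, a c * U c x) ^ 2) / ((N : ℝ) + 1) ^ 2 ≤
      2 * t ^ 2 * B + 2 * (∑ c, a c ^ 2) * (Fintype.card ι * B) := by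
  have hL : (0 : ℝ) < ((N : ℝ) + 1) ^ 2 := by positivity
  rw [div_le_iff₀ hL] at h1 ⊢
  have h3 : ∀ x, (t * u x + ∑ c, a c * U c x) ^ 2 ≤
      2 * t ^ 2 * u x ^ 2 + 2 * (∑ c, a c ^ 2) * ∑ c, U c x ^ 2 := by
    intro x
    have h4 := Finset.sum_mul_sq_le_sq_mul_sq univ a (fun c => U c x)
    nlinarith [sq_nonneg (t * u x - ∑ c, a c * U c x)]
  refine (sum_le_sum fun x _ => h3 x).trans ?_
  rw [sum_add_distrib, ← mul_sum, ← mul_sum, sum_comm]
  have h5 : ∑ c, ∑ x, U c x ^ 2 ≤ ∑ _c : ι, B * ((N : ℝ) + 1) ^ 2 :=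
    sum_le_sum fun c _ => (div_le_iff₀ hL).1 (h2 c)
  rw [sum_const, card_univ, nsmul_eq_mul] at h5
  have h6 : 0 ≤ ∑ c, a c ^ 2 := sum_nonneg fun c _ => sq_nonneg _
  nlinarith [mul_le_mul_of_nonneg_left h5 (show 0 ≤ 2 * ∑ c, a c ^ 2 by positivity),
    mul_le_mul_of_nonneg_left h1 (show 0 ≤ 2 * t ^ 2 by positivity)]

section lim

variable {ι : Type*} [Fintype ι] {ν : ℕ → ℕ} (hν : Tendsto ν atTop atTop) {b : ℝ} (hb : 0 < b)
  {u : ∀ i, Fa (ν i) → ℝ} {U : ι → ∀ i, Fa (ν i) → ℝ} {B : ℝ} {φ : ℕ × ℕ → ℝ}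
  {Φ : ι → ℕ × ℕ → ℝ}
  (hu0 : ∀ i, ∑ x, u i x = 0) (hU0 : ∀ c i, ∑ x, U c i x = 0)
  (huB : ∀ i, (∑ x, u i x ^ 2) / ((ν i : ℝ) + 1) ^ 2 ≤ B)
  (hUB : ∀ c i, (∑ x, U c i x ^ 2) / ((ν i : ℝ) + 1) ^ 2 ≤ B)
  (huφ : ∀ k, Tendsto (fun i => dct (ν i) (u i) k) atTop (𝓝 (φ k)))
  (hUφ : ∀ c k, Tendsto (fun i => dct (ν i) (U c i) k) atTop (𝓝 (Φ c k)))

include hν hb hu0 hU0 huB hUB huφ hUφ in
/-- the charge-zero sector -/
lemma lim_zero (κ' t : ℝ) (σ : ι → ℝ) :
    Tendsto (fun i => hMean (ν i) b fun h => Complex.exp (Complex.I *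
      ((t * pr (u i) h + ∑ c, σ c * (κ' * pr (U c i) h) : ℝ) : ℂ))) atTop
      (𝓝 ((Real.exp (-(helicity b / 2 *
        ∑' k, qk (fun k => t * φ k + ∑ c, (κ' * σ c) * Φ c k) k)) : ℝ) : ℂ)) := by
  have h := blk hν (u := fun i x => t * u i x + ∑ c, (κ' * σ c) * U c i x)
    (B := 2 * t ^ 2 * B + 2 * (∑ c, (κ' * σ c) ^ 2) * (Fintype.card ι * B))
    (φ := fun k => t * φ k + ∑ c, (κ' * σ c) * Φ c k) hb
    (fun i => by
      rw [sum_add_distrib, ← mul_sum, hu0, sum_comm]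
      simp only [← mul_sum, hU0]
      simp)
    (fun i => sq_comb_le (u i) (fun c => U c i) t _ (huB i) fun c => hUB c i)
    (fun k => by
      simp only [dct_comb']
      exact ((huφ k).const_mul t).add (tendsto_finsetSum _ fun c _ => (hUφ c k).const_mul _))
  refine h.congr fun i => ?_
  congr 1
  funext h
  rw [pr_comb]
  congr 4
  exact sum_congr rfl fun c _ => by ring

include hu0 hU0 huB hUB huφ hUφ in
lemma lim_m (hP : P2 b ν) (κ' t : ℝ) (σ : ι → ℝ) {m : ℤ} (hm0 : m ≠ 0) :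
    Tendsto (fun i => hMean (ν i) b fun h => Complex.exp (Complex.I *
      ((2 * Real.pi * m * hm h + t * pr (u i) h + ∑ c, σ c * (κ' * pr (U c i) h) : ℝ) : ℂ)))
      atTop (𝓝 0) := by
  have h := hP m hm0 (fun i x => t * u i x + ∑ c, (κ' * σ c) * U c i x)
    (fun i => by
      rw [sum_add_distrib, ← mul_sum, hu0, sum_comm]
      simp only [← mul_sum, hU0]
      simp)
    ⟨2 * t ^ 2 * B + 2 * (∑ c, (κ' * σ c) ^ 2) * (Fintype.card ι * B),
      fun i => sq_comb_le (u i) (fun c => U c i) t _ (huB i) fun c => hUB c i⟩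
    ⟨fun k => t * φ k + ∑ c, (κ' * σ c) * Φ c k, fun k => by
      simp only [dct_comb']
      exact ((huφ k).const_mul t).add (tendsto_finsetSum _ fun c _ => (hUφ c k).const_mul _)⟩
  refine h.congr fun i => ?_
  congr 1
  funext h
  rw [pr_comb, ← add_assoc]
  congr 4
  exact sum_congr rfl fun c _ => by ring

/-- the integrand under the mass on the cell averages, after summation over the global integer -/
noncomputable def FF {N : ℕ} (κ κ' s t : ℝ) (u : Fa N → ℝ) (U : ι → Fa N → ℝ)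
    (h : Fa N → ℤ) : ℂ :=
  (∑' n : ℤ, tt κ s (hm h) n) * (Complex.exp (Complex.I * ((t * pr u h : ℝ) : ℂ)) *
    ((Real.exp (-(∑ c, (κ' * pr (U c) h) ^ 2) / 2) : ℝ) : ℂ))

/-- the limit of the Gaussian average over the twists -/
noncomputable def JJ (Y κ' t : ℝ) (φ : ℕ × ℕ → ℝ) (Φ : ι → ℕ × ℕ → ℝ) : ℝ :=
  ∫ σ : ι → ℝ, Real.exp (-(∑ c, σ c ^ 2) / 2) *
    Real.exp (-(Y / 2 * ∑' k, qk (fun k => t * φ k + ∑ c, (κ' * σ c) * Φ c k) k))

lemma FF_eq {N : ℕ} (hb : 0 < b) {κ : ℝ} (hκ : 0 < κ) (κ' s t : ℝ) (u : Fa N → ℝ)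
    (U : ι → Fa N → ℝ) :
    hMean N b (FF κ κ' s t u U) =
      ((Real.sqrt (2 * Real.pi) / κ / Real.sqrt (2 * Real.pi) ^ Fintype.card ι : ℝ) : ℂ) *
      ∑' m : ℤ, (pt κ s m : ℂ) * ∫ σ : ι → ℝ, ((gw σ : ℝ) : ℂ) * hMean N b fun h =>
        Complex.exp (Complex.I * ((2 * Real.pi * m * hm h + t * pr u h +
          ∑ c, σ c * (κ' * pr (U c) h) : ℝ) : ℂ)) := by
  have h2 : (0 : ℝ) < Real.sqrt (2 * Real.pi) ^ Fintype.card ι := by
    have := Real.pi_pos
    positivity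
  have e1 : ∀ h : Fa N → ℤ, FF κ κ' s t u U h =
      ((Real.sqrt (2 * Real.pi) / κ / Real.sqrt (2 * Real.pi) ^ Fintype.card ι : ℝ) : ℂ) *
      ((∑' m : ℤ, (pt κ s m : ℂ) *
        Complex.exp (Complex.I * ((2 * Real.pi * m * hm h : ℝ) : ℂ))) *
        (Complex.exp (Complex.I * ((t * pr u h : ℝ) : ℂ)) *
        ∫ σ : ι → ℝ, ((gw σ : ℝ) : ℂ) *
          Complex.exp (Complex.I * ((∑ c, σ c * (κ' * pr (U c) h) : ℝ) : ℂ)))) := by
    intro h
    have h3 := twist (fun c => κ' * pr (U c) h)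
    unfold FF gw
    rw [poisson hκ, h3]
    push_cast
    have h4 : ((Real.sqrt (2 * Real.pi) : ℝ) : ℂ) ^ Fintype.card ι ≠ 0 := by
      have := h2.ne'
      exact_mod_cast this
    field_simp
    congr 1
    exact tsum_congr fun m => by ring_nf
  have e2 : hMean N b (FF κ κ' s t u U) =
      ((Real.sqrt (2 * Real.pi) / κ / Real.sqrt (2 * Real.pi) ^ Fintype.card ι : ℝ) : ℂ) *
      hMean N b (fun h => (∑' m : ℤ, (pt κ s m : ℂ) *
        Complex.exp (Complex.I * ((2 * Real.pi * m * hm h : ℝ) : ℂ))) *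
        (Complex.exp (Complex.I * ((t * pr u h : ℝ) : ℂ)) *
        ∫ σ : ι → ℝ, ((gw σ : ℝ) : ℂ) *
          Complex.exp (Complex.I * ((∑ c, σ c * (κ' * pr (U c) h) : ℝ) : ℂ)))) := by
    unfold hMean
    rw [mul_div_assoc', ← tsum_mul_left]
    congr 1
    refine tsum_congr fun h => ?_
    rw [e1]
    ring
  rw [e2]
  congr 1
  rw [swap_tsum hb (pt_summable hκ s) (fun m => (pt_pos κ s m).le) hm
    (C := Real.sqrt (2 * Real.pi) ^ Fintype.card ι)]
  · refine tsum_congr fun m => ?_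
    congr 1
    have h5 := swap_int hb (fun h => 2 * Real.pi * m * hm h + t * pr u h)
      (fun c h => κ' * pr (U c) h)
    rw [← h5]
    congr 1
    funext h
    rw [← mul_assoc, ← Complex.exp_add]
    congr 2
    push_cast
    ring
  · intro h
    have h3 := twist (fun c => κ' * pr (U c) h)
    unfold gw
    rw [norm_mul, norm_eI, one_mul, h3, Complex.norm_real, Real.norm_eq_abs,
      abs_of_nonneg (by positivity)]
    refine mul_le_of_le_one_right h2.le ?_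
    rw [Real.exp_le_one_iff]
    have : 0 ≤ ∑ c, (κ' * pr (U c) h) ^ 2 := sum_nonneg fun c _ => sq_nonneg _
    linarith

include hν hb hu0 hU0 huB hUB huφ hUφ in
/-- LIM: the limit -/
theorem lim (hP : P2 b ν) {κ : ℝ} (hκ : 0 < κ) (κ' s t : ℝ) :
    Tendsto (fun i => hMean (ν i) b (FF κ κ' s t (u i) fun c => U c i)) atTop
      (𝓝 ((Real.sqrt (2 * Real.pi) / κ / Real.sqrt (2 * Real.pi) ^ Fintype.card ι *
        (Real.exp (-s ^ 2 / (2 * κ ^ 2)) * JJ (helicity b) κ' t φ Φ) : ℝ) : ℂ)) := by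
  simp only [FF_eq hb hκ]
  rw [Complex.ofReal_mul]
  refine Tendsto.const_mul _ ?_
  set A : ℤ → ℂ := fun m => if m = 0 then ((JJ (helicity b) κ' t φ Φ : ℝ) : ℂ) else 0 with hA
  have h1 : ∀ m : ℤ, Tendsto (fun i => ∫ σ : ι → ℝ, ((gw σ : ℝ) : ℂ) * hMean (ν i) b fun h =>
        Complex.exp (Complex.I * ((2 * Real.pi * m * hm h + t * pr (u i) h +
          ∑ c, σ c * (κ' * pr (U c i) h) : ℝ) : ℂ))) atTop (𝓝 (A m)) := by
    intro m
    have hlim : ∀ σ : ι → ℝ, Tendsto (fun i => ((gw σ : ℝ) : ℂ) * hMean (ν i) b fun h =>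
        Complex.exp (Complex.I * ((2 * Real.pi * m * hm h + t * pr (u i) h +
          ∑ c, σ c * (κ' * pr (U c i) h) : ℝ) : ℂ))) atTop
        (𝓝 (if m = 0 then ((Real.exp (-(∑ c, σ c ^ 2) / 2) * Real.exp (-(helicity b / 2 *
          ∑' k, qk (fun k => t * φ k + ∑ c, (κ' * σ c) * Φ c k) k)) : ℝ) : ℂ) else 0)) := by
      intro σ
      split_ifs with hm0
      · subst hm0
        rw [Complex.ofReal_mul]
        refine Tendsto.const_mul _ ?_
        refine (lim_zero hν hb hu0 hU0 huB hUB huφ hUφ κ' t σ).congr fun i => ?_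
        congr 1
        funext h
        congr 3
        push_cast
        ring
      · have := (lim_m hu0 hU0 huB hUB huφ hUφ hP κ' t σ hm0).const_mul ((gw σ : ℝ) : ℂ)
        rwa [mul_zero] at this
    have hAm : A m = ∫ σ : ι → ℝ, (if m = 0 then ((Real.exp (-(∑ c, σ c ^ 2) / 2) *
        Real.exp (-(helicity b / 2 *
          ∑' k, qk (fun k => t * φ k + ∑ c, (κ' * σ c) * Φ c k) k)) : ℝ) : ℂ) else 0) := by
      simp only [hA]
      split_ifs with hm0
      · unfold JJ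
        rw [← integral_complex_ofReal]
      · simp
    rw [hAm]
    refine tendsto_integral_of_dominated_convergence (fun σ => gw σ) (fun i => ?_) gw_int
      (fun i => Eventually.of_forall fun σ => ?_) (Eventually.of_forall hlim)
    · refine Continuous.aestronglyMeasurable ?_
      refine (Complex.continuous_ofReal.comp gw_cont).mul ?_
      exact chi_cont hb (fun h => 2 * Real.pi * m * hm h + t * pr (u i) h)
        (fun c h => κ' * pr (U c i) h)
    · rw [norm_mul, Complex.norm_real, Real.norm_eq_abs, abs_of_pos (gw_pos σ)]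
      exact mul_le_of_le_one_right (gw_pos σ).le (hMean_norm_le_one hb _)
  have h2 : ((Real.exp (-s ^ 2 / (2 * κ ^ 2)) * JJ (helicity b) κ' t φ Φ : ℝ) : ℂ) =
      ∑' m : ℤ, (pt κ s m : ℂ) * A m := by
    rw [tsum_eq_single 0]
    · simp only [hA, if_true, pt]
      push_cast
      simp
    · intro m hm0
      simp only [hA, if_neg hm0, mul_zero]
  rw [h2]
  refine tendsto_tsum_of_dominated_convergence
    (bound := fun m => pt κ s m * Real.sqrt (2 * Real.pi) ^ Fintype.card ι)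
    ((pt_summable hκ s).mul_right _) (fun m => (h1 m).const_mul _) ?_
  refine Eventually.of_forall fun i m => ?_
  rw [norm_mul, Complex.norm_real, Real.norm_eq_abs, abs_of_pos (pt_pos κ s m)]
  refine mul_le_mul_of_nonneg_left ?_ (pt_pos κ s m).le
  rw [← gw_integral]
  refine (norm_integral_le_integral_norm _).trans ?_
  refine integral_mono_of_nonneg (Eventually.of_forall fun σ => norm_nonneg _) gw_int
    (Eventually.of_forall fun σ => ?_)
  simp only
  rw [norm_mul, Complex.norm_real, Real.norm_eq_abs, abs_of_pos (gw_pos σ)]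
  exact mul_le_of_le_one_right (gw_pos σ).le (hMean_norm_le_one hb _)

end lim

end Vale.Agent.P159.TM.H968
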