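import Vale.Agent.P159.TM.H968.Blk
import Vale.Agent.P159.TM.H968.Gau

/-!
Row GAU of part (I): the limit variance as a quadratic form.
-/

open Finset Filter Topology

namespace Vale.Agent.P159.TM.H968

open Vale.Agent.P159 Vale.Agent.P159.R2.H254

/-- bilinear version of `qk` -/
noncomputable def qb (φ ψ : ℕ × ℕ → ℝ) (k : ℕ × ℕ) : ℝ :=
  if k = (0, 0) then 0 else
    φ k * ψ k / (nr k * (Real.pi ^ 2 * ((k.1 : ℝ) ^ 2 + (k.2 : ℝ) ^ 2)))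

lemma qb_self (φ : ℕ × ℕ → ℝ) (k : ℕ × ℕ) : qb φ φ k = qk φ k := by
  unfold qb qk
  simp only [pow_two]

lemma qb_comm (φ ψ : ℕ × ℕ → ℝ) (k : ℕ × ℕ) : qb φ ψ k = qb ψ φ k := by
  unfold qb
  simp only [mul_comm (φ k)]

lemma abs_qb_le (φ ψ : ℕ × ℕ → ℝ) (k : ℕ × ℕ) : |qb φ ψ k| ≤ qk φ k + qk ψ k := by
  unfold qb qk
  split_ifs with h
  · simp
  · have h1 := nr_pos k
    rw [← add_div, abs_div, abs_of_nonneg (a := nr k * _) (by positivity)]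
    refine div_le_div_of_nonneg_right ?_ (by positivity)
    rw [abs_mul]
    nlinarith [sq_nonneg (|φ k| - |ψ k|), sq_abs (φ k), sq_abs (ψ k), sq_nonneg (φ k),
      sq_nonneg (ψ k)]

lemma qb_summable {φ ψ : ℕ × ℕ → ℝ} (h1 : Summable (qk φ)) (h2 : Summable (qk ψ)) :
    Summable (qb φ ψ) :=
  Summable.of_norm_bounded (h1.add h2) fun k => by
    rw [Real.norm_eq_abs]; exact abs_qb_le φ ψ k

section

variable {ι : Type*} [Fintype ι]

lemma qk_comb (φ : ℕ × ℕ → ℝ) (Φ : ι → ℕ × ℕ → ℝ) (t : ℝ) (a : ι → ℝ) (k : ℕ × ℕ) :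
    qk (fun k => t * φ k + ∑ c, a c * Φ c k) k =
      t ^ 2 * qk φ k + 2 * t * ∑ c, a c * qb φ (Φ c) k +
        ∑ c, ∑ d, a c * a d * qb (Φ c) (Φ d) k := by
  unfold qk qb
  split_ifs with h
  · simp
  · set D := nr k * (Real.pi ^ 2 * ((k.1 : ℝ) ^ 2 + (k.2 : ℝ) ^ 2)) with hD
    have e1 : ∑ c, a c * (φ k * Φ c k / D) = φ k * (∑ c, a c * Φ c k) / D := by
      rw [mul_sum, sum_div]
      exact sum_congr rfl fun c _ => by ring
    have e2 : ∑ c, ∑ d, a c * a d * (Φ c k * Φ d k / D) = (∑ c, a c * Φ c k) ^ 2 / D := by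
      rw [pow_two, sum_mul_sum, sum_div]
      refine sum_congr rfl fun c _ => ?_
      rw [sum_div]
      exact sum_congr rfl fun d _ => by ring
    rw [e1, e2]
    ring

lemma tsum_qk_comb {φ : ℕ × ℕ → ℝ} {Φ : ι → ℕ × ℕ → ℝ} (h1 : Summable (qk φ))
    (h2 : ∀ c, Summable (qk (Φ c))) (t : ℝ) (a : ι → ℝ) :
    HasSum (qk (fun k => t * φ k + ∑ c, a c * Φ c k))
      (t ^ 2 * ∑' k, qk φ k + 2 * t * ∑ c, a c * ∑' k, qb φ (Φ c) k +
        ∑ c, ∑ d, a c * a d * ∑' k, qb (Φ c) (Φ d) k) := by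
  have e : qk (fun k => t * φ k + ∑ c, a c * Φ c k) = fun k =>
      t ^ 2 * qk φ k + 2 * t * ∑ c, a c * qb φ (Φ c) k +
        ∑ c, ∑ d, a c * a d * qb (Φ c) (Φ d) k := by
    funext k; exact qk_comb φ Φ t a k
  rw [e]
  refine ((h1.hasSum.mul_left _).add (HasSum.mul_left _ (hasSum_sum fun c _ =>
    ((qb_summable h1 (h2 c)).hasSum.mul_left _)))).add (hasSum_sum fun c _ => hasSum_sum
      fun d _ => ((qb_summable (h2 c) (h2 d)).hasSum.mul_left _))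

/-- the limit of the Gaussian average over the twists: exponential of the minimum -/
theorem gau_qk {φ : ℕ × ℕ → ℝ} {Φ : ι → ℕ × ℕ → ℝ} (h1 : Summable (qk φ))
    (h2 : ∀ c, Summable (qk (Φ c))) {Y : ℝ} (hY : 0 ≤ Y) (κ : ℝ) :
    ∃ b : ι → ℝ, ∀ t : ℝ,
      ∫ σ : ι → ℝ, Real.exp (-(∑ c, σ c ^ 2) / 2) *
        Real.exp (-(Y / 2 * ∑' k, qk (fun k => t * φ k + ∑ c, (κ * σ c) * Φ c k) k)) =
      Real.exp (-(t ^ 2 * (∑ c, b c ^ 2 +
          Y * ∑' k, qk (fun k => 1 * φ k + ∑ c, (κ * b c) * Φ c k) k)) / 2) *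
        ∫ σ : ι → ℝ, Real.exp (-(∑ c, σ c ^ 2) / 2) *
          Real.exp (-(Y / 2 * ∑' k, qk (fun k => 0 * φ k + ∑ c, (κ * σ c) * Φ c k) k)) := by
  set M : ι → ι → ℝ := fun c d => Y * κ ^ 2 * ∑' k, qb (Φ c) (Φ d) k with hM
  have hMs : ∀ c d, M c d = M d c := by
    intro c d
    simp only [hM]
    congr 1
    exact tsum_congr fun k => qb_comm _ _ k
  have hbm : ∀ σ : ι → ℝ, bm M σ σ =
      Y * ∑ c, ∑ d, (κ * σ c) * (κ * σ d) * ∑' k, qb (Φ c) (Φ d) k := by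
    intro σ
    unfold bm
    rw [mul_sum]
    refine sum_congr rfl fun c _ => ?_
    rw [mul_sum]
    exact sum_congr rfl fun d _ => by simp only [hM]; ring
  have hMp : ∀ σ : ι → ℝ, 0 ≤ bm M σ σ := by
    intro σ
    have h3 := tsum_qk_comb h1 h2 0 (fun c => κ * σ c)
    rw [hbm]
    have h4 : 0 ≤ ∑' k, qk (fun k => 0 * φ k + ∑ c, (κ * σ c) * Φ c k) k :=
      tsum_nonneg fun k => qk_nonneg _ k
    rw [h3.tsum_eq] at h4
    have h5 : 0 ≤ ∑ c, ∑ d, (κ * σ c) * (κ * σ d) * ∑' k, qb (Φ c) (Φ d) k := by linarith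
    positivity
  obtain ⟨b, hb⟩ := gau M hMs hMp (fun c => Y * κ * ∑' k, qb φ (Φ c) k) (Y * ∑' k, qk φ k)
  have key : ∀ (t : ℝ) (σ : ι → ℝ),
      Y * ∑' k, qk (fun k => t * φ k + ∑ c, (κ * σ c) * Φ c k) k =
      t ^ 2 * (Y * ∑' k, qk φ k) + 2 * t * ∑ c, σ c * (Y * κ * ∑' k, qb φ (Φ c) k) +
        bm M σ σ := by
    intro t σ
    rw [(tsum_qk_comb h1 h2 t fun c => κ * σ c).tsum_eq, hbm]
    have e1 : ∑ c, σ c * (Y * κ * ∑' k, qb φ (Φ c) k) =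
        Y * ∑ c, κ * σ c * ∑' k, qb φ (Φ c) k := by
      rw [mul_sum]
      exact sum_congr rfl fun c _ => by ring
    rw [e1]
    ring
  refine ⟨b, fun t => ?_⟩
  have h := hb t
  have e2 : ∀ (t : ℝ) (σ : ι → ℝ), Real.exp (-(∑ c, σ c ^ 2) / 2) *
        Real.exp (-(Y / 2 * ∑' k, qk (fun k => t * φ k + ∑ c, (κ * σ c) * Φ c k) k)) =
      Real.exp (-(∑ c, σ c ^ 2 + (t ^ 2 * (Y * ∑' k, qk φ k) +
        2 * t * ∑ c, σ c * (Y * κ * ∑' k, qb φ (Φ c) k) + bm M σ σ)) / 2) := by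
    intro t σ
    rw [← key, ← Real.exp_add]
    congr 1
    ring
  simp only [e2]
  rw [h]
  congr 1
  · congr 1
    rw [key]
    ring
  · congr 1
    funext σ
    congr 1
    ring

end

end Vale.Agent.P159.TM.H968
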