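import Vale.Agent.P159.TM.H968.Lim

/-!
Row GAU of part (I): the limit of the characteristic function of a linear functional with constant
mean, under the mass on the cell averages, and the lower bound for the variance.
-/

open Finset Filter Topology MeasureTheory

namespace Vale.Agent.P159.TM.H968

open Vale.Agent.P159 Vale.Agent.P159.R2.H254 Vale.Agent.P159.H353 Vale.Agent.P159.H950

lemma JJ_zero_pos {ι : Type*} [Fintype ι] {φ : ℕ × ℕ → ℝ} {Φ : ι → ℕ × ℕ → ℝ}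
    (h1 : Summable (qk φ)) (h2 : ∀ c, Summable (qk (Φ c))) {Y : ℝ} (hY : 0 ≤ Y) (κ' : ℝ) :
    0 < JJ Y κ' 0 φ Φ := by
  unfold JJ
  have hc : Continuous fun σ : ι → ℝ => Real.exp (-(∑ c, σ c ^ 2) / 2) *
      Real.exp (-(Y / 2 * ∑' k, qk (fun k => 0 * φ k + ∑ c, (κ' * σ c) * Φ c k) k)) := by
    have e : ∀ σ : ι → ℝ, ∑' k, qk (fun k => 0 * φ k + ∑ c, (κ' * σ c) * Φ c k) k =
        0 ^ 2 * ∑' k, qk φ k + 2 * 0 * ∑ c, (κ' * σ c) * ∑' k, qb φ (Φ c) k +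
        ∑ c, ∑ d, (κ' * σ c) * (κ' * σ d) * ∑' k, qb (Φ c) (Φ d) k := fun σ =>
      (tsum_qk_comb h1 h2 0 fun c => κ' * σ c).tsum_eq
    simp only [e]
    fun_prop
  have hb : ∀ σ : ι → ℝ, ‖Real.exp (-(∑ c, σ c ^ 2) / 2) *
      Real.exp (-(Y / 2 * ∑' k, qk (fun k => 0 * φ k + ∑ c, (κ' * σ c) * Φ c k) k))‖ ≤ gw σ := by
    intro σ
    rw [Real.norm_eq_abs, abs_of_pos (by positivity)]
    refine mul_le_of_le_one_right (gw_pos σ).le ?_
    rw [Real.exp_le_one_iff]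
    have : 0 ≤ ∑' k, qk (fun k => 0 * φ k + ∑ c, (κ' * σ c) * Φ c k) k :=
      tsum_nonneg fun k => qk_nonneg _ k
    have := mul_nonneg (show 0 ≤ Y / 2 by positivity) this
    linarith
  have hi := Integrable.mono' gw_int hc.aestronglyMeasurable (Eventually.of_forall hb)
  rw [integral_pos_iff_support_of_nonneg (fun σ => by positivity) hi]
  have : Function.support (fun σ : ι → ℝ => Real.exp (-(∑ c, σ c ^ 2) / 2) *
      Real.exp (-(Y / 2 * ∑' k, qk (fun k => 0 * φ k + ∑ c, (κ' * σ c) * Φ c k) k))) =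
      Set.univ := by
    ext σ
    simp only [Function.mem_support, Set.mem_univ, iff_true]
    positivity
  rw [this]
  exact isOpen_univ.measure_pos _ Set.univ_nonempty

lemma one_sub_exp {x : ℝ} (hx : 0 ≤ x) : x - x ^ 2 / 2 ≤ 1 - Real.exp (-x) := by
  have h1 := Real.quadratic_le_exp_of_nonneg hx
  have h2 : 0 < 1 + x + x ^ 2 / 2 := by positivity
  have h3 : Real.exp (-x) ≤ 1 - x + x ^ 2 / 2 := by
    rw [Real.exp_neg]
    refine (inv_anti₀ h2 h1).trans ?_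
    rw [inv_le_iff_one_le_mul₀ h2]
    nlinarith [sq_nonneg (x ^ 2)]
  linarith

lemma c2_zero (N : ℕ) (x : Fa N) : c2 N (0, 0) x = 1 := by
  simp [c2, c1]

lemma dct_one {N : ℕ} {k : ℕ × ℕ} (h1 : k.1 < N + 1) (h2 : k.2 < N + 1) :
    dct N (fun _ => 1) k = if k = (0, 0) then 1 else 0 := by
  have h := orth2 N (⟨k.1, h1⟩, ⟨k.2, h2⟩) (0, 0)
  have e1 : ix (((⟨k.1, h1⟩ : Fin (N + 1)), (⟨k.2, h2⟩ : Fin (N + 1))) : Fa N) = k := rfl
  have e2 : ix (((0 : Fin (N + 1)), (0 : Fin (N + 1))) : Fa N) = (0, 0) := by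
    simp [ix]
  rw [e1, e2] at h
  unfold dct
  have hN : ((N : ℝ) + 1) ^ 2 ≠ 0 := by positivity
  have e3 : ∑ x : Fa N, (1 : ℝ) * c2 N k x = ∑ x : Fa N, c2 N k x * c2 N (0, 0) x :=
    sum_congr rfl fun x _ => by rw [c2_zero]; ring
  rw [e3, h]
  by_cases hk : k = (0, 0)
  · subst hk
    rw [if_pos rfl, if_pos]
    · simp [nr, cnrm, div_self hN]
    · rfl
  · rw [if_neg hk, if_neg, zero_div]
    intro hcon
    apply hk
    have h3 := congrArg (fun q : Fa N => ((q.1 : ℕ), (q.2 : ℕ))) hcon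
    simp only [Fin.val_zero] at h3
    exact h3

lemma dct_one_tendsto {ν : ℕ → ℕ} (hν : Tendsto ν atTop atTop) (k : ℕ × ℕ) :
    Tendsto (fun i => dct (ν i) (fun _ => 1) k) atTop (𝓝 (if k = (0, 0) then 1 else 0)) := by
  refine tendsto_const_nhds.congr' ?_
  filter_upwards [hν.eventually_ge_atTop (k.1 + k.2)] with i hi
  rw [dct_one (by omega) (by omega)]

lemma dct_sub_const {N : ℕ} (u : Fa N → ℝ) (c : ℝ) (k : ℕ × ℕ) :
    dct N (fun x => u x - c) k = dct N u k - c * dct N (fun _ => 1) k := by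
  unfold dct
  rw [mul_div_assoc', ← sub_div]
  congr 1
  simp only [sub_mul, sum_sub_distrib, mul_sum, one_mul]

lemma sum_sub_mean {N : ℕ} {u : Fa N → ℝ} {c : ℝ} (h : ∑ x, u x = c * ((N : ℝ) + 1) ^ 2) :
    ∑ x, (u x - c) = 0 := by
  rw [sum_sub_distrib, h, sum_const, card_univ]
  simp only [Fintype.card_prod, Fintype.card_fin, nsmul_eq_mul]
  push_cast
  ring

lemma sq_sub_mean {N : ℕ} {u : Fa N → ℝ} {c : ℝ} (h : ∑ x, u x = c * ((N : ℝ) + 1) ^ 2) :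
    ∑ x, (u x - c) ^ 2 ≤ ∑ x, u x ^ 2 := by
  have e : ∑ x, (u x - c) ^ 2 = ∑ x, u x ^ 2 - 2 * c * ∑ x, u x + ∑ x : Fa N, c ^ 2 := by
    rw [mul_sum, ← sum_sub_distrib, ← sum_add_distrib]
    exact sum_congr rfl fun x _ => by ring
  rw [e, h, sum_const, card_univ]
  simp only [Fintype.card_prod, Fintype.card_fin, nsmul_eq_mul]
  push_cast
  nlinarith [mul_nonneg (sq_nonneg c) (sq_nonneg ((N : ℝ) + 1))]

section ratio

variable {ι : Type*} [Fintype ι] {ν : ℕ → ℕ} (hν : Tendsto ν atTop atTop) {b : ℝ} (hb : 0 < b)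
  (hY : 0 < helicity b)
  {u : ∀ i, Fa (ν i) → ℝ} {U : ι → ∀ i, Fa (ν i) → ℝ} {B d ū : ℝ} {φ : ℕ × ℕ → ℝ}
  {Φ : ι → ℕ × ℕ → ℝ}
  (hu1 : ∀ i, ∑ x, u i x = ū * ((ν i : ℝ) + 1) ^ 2)
  (hU1 : ∀ c i, ∑ x, U c i x = 1 * ((ν i : ℝ) + 1) ^ 2)
  (huB : ∀ i, (∑ x, u i x ^ 2) / ((ν i : ℝ) + 1) ^ 2 ≤ B)
  (hUB : ∀ i, ∀ b : ι → ℝ, (∑ x, (∑ c, b c * U c i x) ^ 2) / ((ν i : ℝ) + 1) ^ 2 ≤
    d * ∑ c, b c ^ 2)
  (huφ : ∀ k, Tendsto (fun i => dct (ν i) (u i) k) atTop (𝓝 (φ k)))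
  (hUφ : ∀ c k, Tendsto (fun i => dct (ν i) (U c i) k) atTop (𝓝 (Φ c k)))

include hν hb hY hu1 hU1 huB hUB huφ hUφ in
/-- RATIO: the limit characteristic function under the mass on the cell averages is Gaussian, with
variance at least the mode sum -/
theorem ratio (hP : P2 b ν) {κ κ' : ℝ} (hκ : 0 < κ) (hκ' : κ' ^ 2 * d = κ ^ 2) :
    ∃ v : ℝ, (∀ K : Finset (ℕ × ℕ), ∑ k ∈ K, φ k ^ 2 /
        (nr k * (κ ^ 2 + Real.pi ^ 2 * ((k.1 : ℝ) ^ 2 + (k.2 : ℝ) ^ 2) / helicity b)) ≤ v) ∧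
      ∀ t : ℝ, Tendsto (fun i =>
        hMean (ν i) b (FF κ κ' (t * ū) t (fun x => u i x - ū) fun c x => U c i x - 1) /
        hMean (ν i) b (FF κ κ' 0 0 (fun x => u i x - ū) fun c x => U c i x - 1)) atTop
        (𝓝 ((Real.exp (-(t ^ 2 * v / 2)) : ℝ) : ℂ)) := by
  classical
  have hL : ∀ i, (0 : ℝ) < ((ν i : ℝ) + 1) ^ 2 := fun i => by positivity
  have hUB' : ∀ c i, (∑ x, U c i x ^ 2) / ((ν i : ℝ) + 1) ^ 2 ≤ d := by
    intro c i
    have h := hUB i (Pi.single c 1)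
    have e1 : ∀ x, ∑ c', (Pi.single c (1 : ℝ) : ι → ℝ) c' * U c' i x = U c i x := by
      intro x
      rw [sum_eq_single c]
      · simp
      · intro c' _ hc'
        simp [Pi.single_eq_of_ne hc']
      · simp
    have e2 : ∑ c', (Pi.single c (1 : ℝ) : ι → ℝ) c' ^ 2 = 1 := by
      rw [sum_eq_single c]
      · simp
      · intro c' _ hc'
        simp [Pi.single_eq_of_ne hc']
      · simp
    simp only [e1, e2, mul_one] at h
    exact h
  -- the neutral parts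
  have hu0 : ∀ i, ∑ x, (u i x - ū) = 0 := fun i => sum_sub_mean (hu1 i)
  have hU0 : ∀ c i, ∑ x, (U c i x - 1) = 0 := fun c i => sum_sub_mean (hU1 c i)
  have huB1 : ∀ i, (∑ x, (u i x - ū) ^ 2) / ((ν i : ℝ) + 1) ^ 2 ≤ max B d := fun i =>
    ((div_le_div_of_nonneg_right (sq_sub_mean (hu1 i)) (hL i).le).trans (huB i)).trans
      (le_max_left _ _)
  have hUB1 : ∀ c i, (∑ x, (U c i x - 1) ^ 2) / ((ν i : ℝ) + 1) ^ 2 ≤ max B d := fun c i =>
    ((div_le_div_of_nonneg_right (sq_sub_mean (hU1 c i)) (hL i).le).trans (hUB' c i)).trans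
      (le_max_right _ _)
  set δ : ℕ × ℕ → ℝ := fun k => if k = (0, 0) then 1 else 0 with hδ
  set φ₁ : ℕ × ℕ → ℝ := fun k => φ k - ū * δ k with hφ₁
  set Φ₁ : ι → ℕ × ℕ → ℝ := fun c k => Φ c k - 1 * δ k with hΦ₁
  have huφ1 : ∀ k, Tendsto (fun i => dct (ν i) (fun x => u i x - ū) k) atTop (𝓝 (φ₁ k)) := by
    intro k
    simp only [dct_sub_const]
    exact (huφ k).sub ((dct_one_tendsto hν k).const_mul _)
  have hUφ1 : ∀ c k, Tendsto (fun i => dct (ν i) (fun x => U c i x - 1) k) atTop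
      (𝓝 (Φ₁ c k)) := by
    intro c k
    simp only [dct_sub_const]
    exact (hUφ c k).sub ((dct_one_tendsto hν k).const_mul _)
  have hs1 : Summable (qk φ₁) := summable_qk hν huB1 huφ1
  have hs2 : ∀ c, Summable (qk (Φ₁ c)) := fun c => summable_qk hν (hUB1 c) (hUφ1 c)
  -- the mean coefficients
  have hφ00 : φ (0, 0) = ū := by
    refine tendsto_nhds_unique (huφ (0, 0)) (tendsto_const_nhds.congr fun i => ?_)
    unfold dct
    simp only [c2_zero, mul_one]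
    rw [hu1 i, mul_div_assoc, div_self (hL i).ne', mul_one]
  have hΦ00 : ∀ c, Φ₁ c (0, 0) = 0 := by
    intro c
    refine tendsto_nhds_unique (hUφ1 c (0, 0)) (tendsto_const_nhds.congr fun i => ?_)
    unfold dct
    simp only [c2_zero, mul_one]
    rw [hU0 c i, zero_div]
  have hbes : ∀ (K : Finset (ℕ × ℕ)) (b : ι → ℝ),
      ∑ k ∈ K, (nr k)⁻¹ * (∑ c, b c * Φ₁ c k) ^ 2 ≤ d * ∑ c, b c ^ 2 := by
    intro K b
    have h1 := bessel (l := atTop) hν (u := fun i x => ∑ c, b c * U c i x)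
      (φ := fun k => ∑ c, b c * Φ c k) (fun i => hUB i b) (fun k => by
        have e : ∀ i, dct (ν i) (fun x => ∑ c, b c * U c i x) k =
            ∑ c, b c * dct (ν i) (U c i) k := by
          intro i
          have h := dct_comb' (fun _ => 0) (fun c => U c i) 0 b k
          simpa using h
        simp only [e]
        exact tendsto_finsetSum _ fun c _ => (hUφ c k).const_mul _) K
    refine le_trans (sum_le_sum fun k _ => ?_) h1
    refine mul_le_mul_of_nonneg_left ?_ (inv_nonneg.2 (nr_pos k).le)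
    by_cases hk : k = (0, 0)
    · subst hk
      have e : ∑ c, b c * Φ₁ c (0, 0) = 0 := sum_eq_zero fun c _ => by rw [hΦ00, mul_zero]
      rw [e]
      nlinarith [sq_nonneg (∑ c, b c * Φ c (0, 0))]
    · have e : ∀ c, Φ₁ c k = Φ c k := by
        intro c
        simp only [hΦ₁, hδ, if_neg hk, mul_zero, sub_zero]
      simp only [e]
      exact le_rfl
  obtain ⟨β, hβ⟩ := gau_qk hs1 hs2 hY.le κ'
  set w : ℝ := ∑ c, β c ^ 2 +
    helicity b * ∑' k, qk (fun k => 1 * φ₁ k + ∑ c, (κ' * β c) * Φ₁ c k) k with hw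
  refine ⟨ū ^ 2 / κ ^ 2 + w, fun K => ?_, fun t => ?_⟩
  · have h1 := leg hs1 hs2 hY hκ hκ' hbes (K.erase (0, 0)) (notMem_erase _ _) β
    have h2 : ∑ k ∈ K, φ k ^ 2 /
        (nr k * (κ ^ 2 + Real.pi ^ 2 * ((k.1 : ℝ) ^ 2 + (k.2 : ℝ) ^ 2) / helicity b)) ≤
        ū ^ 2 / κ ^ 2 + ∑ k ∈ K.erase (0, 0), φ k ^ 2 /
        (nr k * (κ ^ 2 + Real.pi ^ 2 * ((k.1 : ℝ) ^ 2 + (k.2 : ℝ) ^ 2) / helicity b)) := by
      by_cases hK : (0, 0) ∈ K
      · rw [← add_sum_erase K _ hK, hφ00]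
        refine add_le_add (le_of_eq ?_) le_rfl
        simp [nr, cnrm]
      · rw [erase_eq_of_notMem hK]
        have : 0 ≤ ū ^ 2 / κ ^ 2 := by positivity
        linarith
    refine h2.trans (add_le_add le_rfl ?_)
    refine le_trans (le_of_eq (sum_congr rfl fun k hk => ?_)) h1
    have hk0 : k ≠ (0, 0) := (mem_erase.1 hk).1
    simp only [hφ₁, hδ, if_neg hk0, mul_zero, sub_zero]
  · have hJ := JJ_zero_pos hs1 hs2 hY.le κ' (φ := φ₁) (Φ := Φ₁)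
    have hlim : ∀ t : ℝ, Tendsto (fun i =>
        hMean (ν i) b (FF κ κ' (t * ū) t (fun x => u i x - ū) fun c x => U c i x - 1)) atTop
        (𝓝 ((Real.sqrt (2 * Real.pi) / κ / Real.sqrt (2 * Real.pi) ^ Fintype.card ι *
        (Real.exp (-(t * ū) ^ 2 / (2 * κ ^ 2)) * JJ (helicity b) κ' t φ₁ Φ₁) : ℝ) : ℂ)) :=
      fun t => lim hν hb (u := fun i x => u i x - ū) (U := fun c i x => U c i x - 1)
        hu0 hU0 huB1 hUB1 huφ1 hUφ1 hP hκ κ' (t * ū) t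
    have h0 := hlim 0
    rw [zero_mul] at h0
    have hC : (0 : ℝ) < Real.sqrt (2 * Real.pi) / κ / Real.sqrt (2 * Real.pi) ^ Fintype.card ι := by
      have := Real.pi_pos
      positivity
    have hne : ((Real.sqrt (2 * Real.pi) / κ / Real.sqrt (2 * Real.pi) ^ Fintype.card ι *
        (Real.exp (-(0 : ℝ) ^ 2 / (2 * κ ^ 2)) * JJ (helicity b) κ' 0 φ₁ Φ₁) : ℝ) : ℂ) ≠ 0 := by
      have : (0 : ℝ) < Real.sqrt (2 * Real.pi) / κ / Real.sqrt (2 * Real.pi) ^ Fintype.card ι *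
        (Real.exp (-(0 : ℝ) ^ 2 / (2 * κ ^ 2)) * JJ (helicity b) κ' 0 φ₁ Φ₁) := by positivity
      exact_mod_cast this.ne'
    have h := (hlim t).div h0 hne
    have hJt : JJ (helicity b) κ' t φ₁ Φ₁ =
        Real.exp (-(t ^ 2 * w) / 2) * JJ (helicity b) κ' 0 φ₁ Φ₁ := hβ t
    have e : ((Real.exp (-(t ^ 2 * (ū ^ 2 / κ ^ 2 + w) / 2)) : ℝ) : ℂ) =
        ((Real.sqrt (2 * Real.pi) / κ / Real.sqrt (2 * Real.pi) ^ Fintype.card ι *
          (Real.exp (-(t * ū) ^ 2 / (2 * κ ^ 2)) * JJ (helicity b) κ' t φ₁ Φ₁) : ℝ) : ℂ) /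
        ((Real.sqrt (2 * Real.pi) / κ / Real.sqrt (2 * Real.pi) ^ Fintype.card ι *
          (Real.exp (-(0 : ℝ) ^ 2 / (2 * κ ^ 2)) * JJ (helicity b) κ' 0 φ₁ Φ₁) : ℝ) : ℂ) := by
      rw [eq_div_iff hne, ← Complex.ofReal_mul]
      congr 1
      rw [hJt]
      have e3 : Real.exp (-(t ^ 2 * (ū ^ 2 / κ ^ 2 + w) / 2)) =
          Real.exp (-(t * ū) ^ 2 / (2 * κ ^ 2)) * Real.exp (-(t ^ 2 * w) / 2) := by
        rw [← Real.exp_add]
        congr 1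
        field_simp
        ring
      have e4 : Real.exp (-(0 : ℝ) ^ 2 / (2 * κ ^ 2)) = 1 := by simp
      rw [e3, e4]
      ring
    rw [e]
    exact h

include hν hb hY hu1 hU1 huB hUB huφ hUφ in
/-- the lower bound for any quantity which dominates `2 (1 - Re E e^{itX}) / t²` -/
theorem var_lower (hP : P2 b ν) {κ κ' : ℝ} (hκ : 0 < κ) (hκ' : κ' ^ 2 * d = κ ^ 2) {M : ℕ → ℝ}
    (hM : ∀ t : ℝ, 0 < t → ∀ᶠ i in atTop, 2 / t ^ 2 * (1 -
      (hMean (ν i) b (FF κ κ' (t * ū) t (fun x => u i x - ū) fun c x => U c i x - 1) /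
        hMean (ν i) b (FF κ κ' 0 0 (fun x => u i x - ū) fun c x => U c i x - 1)).re) ≤ M i)
    (K : Finset (ℕ × ℕ)) {δ : ℝ} (hδ : 0 < δ) :
    ∀ᶠ i in atTop, ∑ k ∈ K, φ k ^ 2 /
        (nr k * (κ ^ 2 + Real.pi ^ 2 * ((k.1 : ℝ) ^ 2 + (k.2 : ℝ) ^ 2) / helicity b)) - δ ≤
      M i := by
  obtain ⟨v, hv, hlim⟩ := ratio hν hb hY hu1 hU1 huB hUB huφ hUφ hP hκ hκ'
  have hv0 : 0 ≤ v := by simpa using hv ∅
  obtain ⟨t, ht, ht2⟩ : ∃ t : ℝ, 0 < t ∧ t ^ 2 * v ^ 2 / 4 < δ := by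
    refine ⟨Real.sqrt (δ / (v ^ 2 + 1)), Real.sqrt_pos.2 (by positivity), ?_⟩
    rw [Real.sq_sqrt (by positivity), div_mul_eq_mul_div, div_div, div_lt_iff₀ (by positivity)]
    nlinarith [sq_nonneg v, mul_nonneg hδ.le (sq_nonneg v)]
  have h1 := (Complex.continuous_re.tendsto _).comp (hlim t)
  rw [Complex.ofReal_re] at h1
  have h2 : v - t ^ 2 * v ^ 2 / 4 ≤ 2 / t ^ 2 * (1 - Real.exp (-(t ^ 2 * v / 2))) := by
    have h3 := one_sub_exp (x := t ^ 2 * v / 2) (by positivity)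
    have h4 : 2 / t ^ 2 * (t ^ 2 * v / 2 - (t ^ 2 * v / 2) ^ 2 / 2) = v - t ^ 2 * v ^ 2 / 4 := by
      field_simp
      ring
    rw [← h4]
    exact mul_le_mul_of_nonneg_left h3 (by positivity)
  have h5 : Tendsto (fun i => 2 / t ^ 2 * (1 -
      (hMean (ν i) b (FF κ κ' (t * ū) t (fun x => u i x - ū) fun c x => U c i x - 1) /
        hMean (ν i) b (FF κ κ' 0 0 (fun x => u i x - ū) fun c x => U c i x - 1)).re)) atTop
      (𝓝 (2 / t ^ 2 * (1 - Real.exp (-(t ^ 2 * v / 2))))) :=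
    (tendsto_const_nhds.sub h1).const_mul _
  have h6 : v - δ < 2 / t ^ 2 * (1 - Real.exp (-(t ^ 2 * v / 2))) := by linarith
  filter_upwards [h5.eventually (lt_mem_nhds h6), hM t ht] with i h7 h8
  have := hv K
  linarith

end ratio

end Vale.Agent.P159.TM.H968
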